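import Vale.Agent.P363.H574.Defs

/-! Block B7: the one-body facts about the hydrogen atom that block B7 uses. -/

namespace Vale.Agent.P363.H942

open MeasureTheory Filter Topology
open Vale.Agent.P363.Stmt
open Vale.Agent.P363.R.Sob
open Vale.Agent.P363.R.KS (H1 qf KSData dir)
open Vale.Agent.P363.R.Top

noncomputable section

/-- Facts about the hydrogen atom (to be supplied by block B1 and the form bound block). -/
structure Hyd (gorb : Fin 5 → Fin 3 → R3 → ℝ) : Prop where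
  h1 : ∀ i, H1 (orb i) (gorb i)
  orth : ∀ i j, ∫ x, orb i x * orb j x = if i = j then 1 else 0
  eig : ∀ i h k, H1 h k → (1 / 2) * (∫ x, ∑ l, gorb i l x * k l x) -
    (∫ x, orb i x * h x / ‖x‖) = orbE i * ∫ x, orb i x * h x
  pot_int : ∀ f g, H1 f g → Integrable (fun x => f x ^ 2 / ‖x‖)
  gap : ∀ f g, H1 f g → (∑ i, orbE i * (∫ x, orb i x * f x) ^ 2) -
    (1 / 18) * ((∫ x, f x ^ 2) - ∑ i, (∫ x, orb i x * f x) ^ 2) ≤
      (1 / 2) * (∫ x, ∑ k, g k x ^ 2) - ∫ x, f x ^ 2 / ‖x‖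
  hardy : ∃ C : ℝ, ∀ f g, H1 f g →
    ∫ x, f x ^ 2 / ‖x‖ ≤ (1 / 8) * (∫ x, ∑ k, g k x ^ 2) + C * ∫ x, f x ^ 2

/-- Energy decomposition in the field of the nucleus (supplied by N1/FB3). -/
def EnergyPot0 : Prop := ∀ Ψ : ElectronState 5, Integrable (fun x => density Ψ x / ‖x‖) ∧
    energy (pot 0) Ψ = H574.kinE Ψ - ∫ x, density Ψ x / ‖x‖

end

end Vale.Agent.P363.H942
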