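import Vale.Agent.P363.H942.B7.Dens

/-! Block B7: closeness of the one-particle density matrix of the Kohn-Sham ensemble to
`diag(2, α, β, β, 1)` in the basis `1s, 2s, 2p₀, 2p₁, 2p₂`. -/

namespace Vale.Agent.P363.H942

open MeasureTheory Filter Topology
open Vale.Agent.P363.Stmt
open Vale.Agent.P363.R.Sob
open Vale.Agent.P363.R.KS (H1 qf KSData dir)
open Vale.Agent.P363.R.Top
open Vale.Agent.P363.H574 (NatFam kinE)

noncomputable section

variable {gorb : Fin 5 → Fin 3 → R3 → ℝ}
variable {v ρ : R3 → ℝ} {E : ℝ} {ι : Type} {h : ι → R3 → ℝ} {g : ι → Fin 3 → R3 → ℝ}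

/-- occupation numbers of the limit -/
def occ (α β : ℝ) (i : Fin 5) : ℝ :=
  if i = 0 then 2 else if i = 1 then α else if i = 4 then 1 else β

theorem occ_zero (α β : ℝ) : occ α β 0 = 2 := if_pos rfl
theorem occ_one (α β : ℝ) : occ α β 1 = α := by simp [occ]
theorem occ_two (α β : ℝ) : occ α β 2 = β := by
  unfold occ; rw [if_neg (by decide), if_neg (by decide), if_neg (by decide)]
theorem occ_three (α β : ℝ) : occ α β 3 = β := by
  unfold occ; rw [if_neg (by decide), if_neg (by decide), if_neg (by decide)]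
theorem occ_four (α β : ℝ) : occ α β 4 = 1 := by
  unfold occ; rw [if_neg (by decide), if_neg (by decide), if_pos rfl]

/-- diagonal matrix -/
def dgl (α β : ℝ) (i j : Fin 5) : ℝ := if i = j then occ α β i else 0

theorem n0_eq (α β : ℝ) (x : R3) : n0 α β x = quad (dgl α β) x := by
  simp only [quad, dgl, n0, ite_mul, zero_mul, Finset.sum_ite_eq, Finset.mem_univ, if_true,
    Fin.sum_univ_five]
  rw [occ_zero, occ_one, occ_two, occ_three, occ_four]
  ring

theorem quad_sub (A B : Fin 5 → Fin 5 → ℝ) (x : R3) :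
    quad (fun i j => A i j - B i j) x = quad A x - quad B x := by
  simp only [quad, sub_mul, Finset.sum_sub_distrib]

theorem near_of_energy [Countable ι] (H : Hyd gorb) (N : NatFam v ρ E h g)
    (hρ : Integrable (fun x => ρ x / ‖x‖)) {ε : ℝ}
    (hen : (1 / 2) * (∑' j, ∫ x, ∑ k, g j k x ^ 2) - (∫ x, ρ x / ‖x‖) ≤ -11 / 8 + ε) :
    Near H.e (nF N) (72 / 5 * ε) ∧ 2 - 8 / 3 * ε ≤ Bf (nF N) (H.e 0) (H.e 0) ∧ 0 ≤ ε := by
  obtain ⟨h1, h2⟩ := energy_sum H N hρ hen
  have h3 : 0 ≤ ∑' j, ‖rem H.e (nF N j)‖ ^ 2 := tsum_nonneg fun j => sq_nonneg _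
  have h4 := (pauli_nF N).self_le (H.e 0)
  rw [H.orthonormal.1 0] at h4
  refine ⟨⟨H.orthonormal, pauli_nF N, h2, ?_⟩, ?_, ?_⟩ <;> linarith

theorem Hyd.abs_mul_le (H : Hyd gorb) (i j : Fin 5) : ∫ x, |orb i x * orb j x| ≤ 1 := by
  have h1 : ∀ x, |orb i x * orb j x| ≤ (orb i x ^ 2 + orb j x ^ 2) / 2 := by
    intro x
    rw [abs_le]
    constructor <;> nlinarith [sq_nonneg (orb i x + orb j x), sq_nonneg (orb i x - orb j x)]
  have hi := (H.h1 i).mem.integrable_sq
  have hj := (H.h1 j).mem.integrable_sq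
  calc ∫ x, |orb i x * orb j x| ≤ ∫ x, (orb i x ^ 2 + orb j x ^ 2) / 2 :=
        integral_mono (H.integrable_mul i j).abs ((hi.add hj).div_const 2) h1
    _ = ((∫ x, orb i x ^ 2) + ∫ x, orb j x ^ 2) / 2 := by
        rw [integral_div, integral_add hi hj]
    _ = 1 := by
        have e : ∀ i : Fin 5, ∫ x, orb i x ^ 2 = 1 := fun i => by
          have := H.orth i i
          rw [if_pos rfl] at this
          rw [← this]
          exact integral_congr_ae (Eventually.of_forall fun x => by ring)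
        rw [e, e]; norm_num

theorem Hyd.quad_abs_le (H : Hyd gorb) (A : Fin 5 → Fin 5 → ℝ) {κ : ℝ} (hA : ∀ i j, |A i j| ≤ κ) :
    ∫ x, |quad A x| ≤ 25 * κ := by
  have h1 : ∀ x, |quad A x| ≤ ∑ i, ∑ j, κ * |orb i x * orb j x| := by
    intro x
    refine (Finset.abs_sum_le_sum_abs _ _).trans (Finset.sum_le_sum fun i _ => ?_)
    refine (Finset.abs_sum_le_sum_abs _ _).trans (Finset.sum_le_sum fun j _ => ?_)
    rw [abs_mul]
    exact mul_le_mul_of_nonneg_right (hA i j) (abs_nonneg _)
  have hi : ∀ i j, Integrable (fun x => κ * |orb i x * orb j x|) := fun i j =>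
    (H.integrable_mul i j).abs.const_mul _
  have hκ : 0 ≤ κ := (abs_nonneg _).trans (hA 0 0)
  calc ∫ x, |quad A x| ≤ ∫ x, ∑ i, ∑ j, κ * |orb i x * orb j x| :=
        integral_mono (H.integrable_quad A).abs
          (integrable_finsetSum _ fun i _ => integrable_finsetSum _ fun j _ => hi i j) h1
    _ = ∑ i, ∑ j, κ * ∫ x, |orb i x * orb j x| := by
        rw [integral_finsetSum _ fun i _ => integrable_finsetSum _ fun j _ => hi i j]
        refine Finset.sum_congr rfl fun i _ => ?_
        rw [integral_finsetSum _ fun j _ => hi i j]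
        exact Finset.sum_congr rfl fun j _ => integral_const_mul _ _
    _ ≤ ∑ _i : Fin 5, ∑ _j : Fin 5, κ * 1 :=
        Finset.sum_le_sum fun i _ => Finset.sum_le_sum fun j _ =>
          mul_le_mul_of_nonneg_left (H.abs_mul_le i j) hκ
    _ = 25 * κ := by simp; ring

/-- `L¹` distance of the quadratic expressions. -/
theorem quad_close [Countable ι] (H : Hyd gorb) (N : NatFam v ρ E h g) {η : ℝ}
    (hn : Near H.e (nF N) η) (α β : ℝ) (hdi : Integrable (fun x => ρ x - n0 α β x)) :
    ∫ x, |quad (fun i j => Bf (nF N) (H.e i) (H.e j) - dgl α β i j) x| ≤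
      2 * Real.sqrt (η * 5) + ∫ x, |ρ x - n0 α β x| := by
  set D : Fin 5 → Fin 5 → ℝ := fun i j => Bf (nF N) (H.e i) (H.e j) - dgl α β i j with hD
  set B : Fin 5 → Fin 5 → ℝ := fun i j => Bf (nF N) (H.e i) (H.e j) with hB
  set t : R3 → ℝ := fun x => if 0 ≤ quad D x then 1 else -1 with ht
  have tm : Measurable t :=
    Measurable.ite (measurableSet_le measurable_const (continuous_quad D).measurable)
      measurable_const measurable_const
  have t1 : ∀ x, |t x| ≤ 1 := by
    intro x
    simp only [ht]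
    split_ifs <;> simp
  have e1 : ∀ x, |quad D x| = t x * quad D x := by
    intro x
    simp only [ht]
    split_ifs with h0
    · rw [abs_of_nonneg h0, one_mul]
    · rw [abs_of_neg (not_le.1 h0)]; ring
  have b1 := hhat_hasSum H N tm t1
  have a1 := dens_hasSum N tm t1
  have hab := sum_norm_bound H N hn tm t1 a1 b1
  have i1 : Integrable (fun x => t x * quad B x) :=
    (H.integrable_quad B).bdd_mul tm.aestronglyMeasurable (c := 1)
      (Eventually.of_forall fun x => by rw [Real.norm_eq_abs]; exact t1 x)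
  have i2 : Integrable (fun x => t x * ρ x) :=
    N.dens_int.bdd_mul tm.aestronglyMeasurable (c := 1)
      (Eventually.of_forall fun x => by rw [Real.norm_eq_abs]; exact t1 x)
  have i3 : Integrable (fun x => t x * (ρ x - n0 α β x)) :=
    hdi.bdd_mul tm.aestronglyMeasurable (c := 1)
      (Eventually.of_forall fun x => by rw [Real.norm_eq_abs]; exact t1 x)
  have e2 : ∫ x, |quad D x| = ((∫ x, t x * quad B x) - ∫ x, t x * ρ x) +
      ∫ x, t x * (ρ x - n0 α β x) := by
    have i12 : Integrable (fun x => t x * quad B x - t x * ρ x) := i1.sub i2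
    rw [← integral_sub i1 i2, ← integral_add i12 i3]
    refine integral_congr_ae (Eventually.of_forall fun x => ?_)
    simp only
    rw [e1 x, quad_sub, n0_eq]
    ring
  have e3 : ∫ x, t x * (ρ x - n0 α β x) ≤ ∫ x, |ρ x - n0 α β x| := by
    refine integral_mono i3 hdi.abs fun x => ?_
    calc t x * (ρ x - n0 α β x) ≤ |t x * (ρ x - n0 α β x)| := le_abs_self _
      _ = |t x| * |ρ x - n0 α β x| := abs_mul _ _
      _ ≤ 1 * |ρ x - n0 α β x| := mul_le_mul_of_nonneg_right (t1 x) (abs_nonneg _)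
      _ = _ := one_mul _
  rw [abs_sub_comm] at hab
  have := le_abs_self ((∫ x, t x * quad B x) - ∫ x, t x * ρ x)
  linarith

/-- The main closeness theorem. -/
theorem closeness (H : Hyd gorb) (α β : ℝ) {κ : ℝ} (hκ : 0 < κ) : ∃ ε > 0,
    ∀ {v ρ : R3 → ℝ} {E : ℝ} {ι : Type} [Countable ι] {h : ι → R3 → ℝ} {g : ι → Fin 3 → R3 → ℝ}
      (N : NatFam v ρ E h g), Integrable (fun x => ρ x / ‖x‖) →
      (1 / 2) * (∑' j, ∫ x, ∑ k, g j k x ^ 2) - (∫ x, ρ x / ‖x‖) ≤ -11 / 8 + ε →
      Integrable (fun x => ρ x - n0 α β x) → ∫ x, |ρ x - n0 α β x| ≤ ε →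
      Near H.e (nF N) κ ∧
      (∀ i j, |Bf (nF N) (H.e i) (H.e j) - if i = j then occ α β i else 0| ≤ κ) ∧
      2 - κ ≤ Bf (nF N) (H.e 0) (H.e 0) := by
  obtain ⟨K, hK, hinj⟩ := H.exists_bound
  set m : ℝ → ℝ := fun ε => (K + 1) * (2 * Real.sqrt (72 / 5 * ε * 5) + ε +
    25 * (8 / 3 * ε + Real.sqrt (2 * (8 / 3 * ε)))) + 72 / 5 * ε + 8 / 3 * ε with hm
  have hmc : Continuous m := by
    simp only [hm]; fun_prop
  have hm0 : m 0 = 0 := by simp [hm]
  have hev : ∀ᶠ ε in 𝓝 (0 : ℝ), m ε < κ := by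
    have := hmc.tendsto 0
    rw [hm0] at this
    exact this.eventually (gt_mem_nhds hκ)
  obtain ⟨δ, hδ, hδ'⟩ := Metric.eventually_nhds_iff.1 hev
  refine ⟨δ / 2, by positivity, ?_⟩
  intro v ρ E ι _ h g N hρ hen hdi hd
  set ε := δ / 2 with hε
  have hmε : m ε < κ := by
    apply hδ'
    rw [Real.dist_eq, sub_zero, abs_of_pos (by positivity)]
    linarith
  obtain ⟨hn, h00, hε0⟩ := near_of_energy H N hρ hen
  have hs1 : 0 ≤ Real.sqrt (72 / 5 * ε * 5) := Real.sqrt_nonneg _
  have hs2 : 0 ≤ Real.sqrt (2 * (8 / 3 * ε)) := Real.sqrt_nonneg _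
  set κ0 : ℝ := 8 / 3 * ε + Real.sqrt (2 * (8 / 3 * ε)) with hκ0
  have hκ0' : 0 ≤ κ0 := by positivity
  set X : ℝ := 2 * Real.sqrt (72 / 5 * ε * 5) + ε + 25 * κ0 with hX
  have hX0 : 0 ≤ X := by positivity
  have hmX : m ε = (K + 1) * X + 72 / 5 * ε + 8 / 3 * ε := rfl
  have hXκ : K * X + X + 72 / 5 * ε + 8 / 3 * ε < κ := by
    rw [hmX] at hmε; linarith
  have hKX : 0 ≤ K * X := by positivity
  have hP := pauli_nF N
  -- row 0
  have hrow : ∀ j, |Bf (nF N) (H.e 0) (H.e j) - dgl α β 0 j| ≤ κ0 := by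
    intro j
    by_cases hj : (0 : Fin 5) = j
    · subst hj
      have h4 := hP.self_le (H.e 0)
      rw [H.orthonormal.1 0] at h4
      simp only [dgl, if_true, occ_zero]
      rw [abs_le]
      constructor
      · have : 0 ≤ Real.sqrt (2 * (8 / 3 * ε)) := hs2
        linarith
      · linarith
    · have h5 := hP.off (H.orthonormal.1 0) h00 (H.e j)
      have h6 : inner ℝ (H.e 0) (H.e j) = (0 : ℝ) := H.orthonormal.2 hj
      rw [h6, H.orthonormal.1 j, mul_zero, zero_sub, abs_neg, mul_one] at h5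
      simp only [dgl, hj, if_false, sub_zero]
      linarith
  set D : Fin 5 → Fin 5 → ℝ := fun i j => Bf (nF N) (H.e i) (H.e j) - dgl α β i j with hD
  have hsym : ∀ i j, D i j = D j i := by
    intro i j
    simp only [hD, dgl]
    rw [Bf_comm]
    by_cases hij : i = j
    · subst hij; rfl
    · rw [if_neg hij, if_neg (Ne.symm hij)]
  set D' : Fin 5 → Fin 5 → ℝ := fun i j => if i = 0 ∨ j = 0 then 0 else D i j with hD'
  have hD'V : D' ∈ SymV := by
    refine ⟨fun i j => ?_, fun j => by simp [hD']⟩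
    simp only [hD']
    rw [hsym i j]
    by_cases hi : i = 0 <;> by_cases hj : j = 0 <;> simp [hi, hj]
  have hq := quad_close H N hn α β hdi
  have hq' : ∫ x, |quad D' x| ≤ X := by
    have h1 : ∫ x, |quad (fun i j => D i j - D' i j) x| ≤ 25 * κ0 := by
      refine H.quad_abs_le _ fun i j => ?_
      simp only [hD']
      by_cases hi : i = 0
      · subst hi; simp only [true_or, if_true, sub_zero]; exact hrow j
      · by_cases hj : j = 0
        · subst hj; simp only [or_true, if_true, sub_zero]; rw [hsym]; exact hrow i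
        · simp only [hi, hj, or_self, if_false, sub_self, abs_zero]; exact hκ0'
    have h2 : ∫ x, |quad D' x| ≤ ∫ x, (|quad D x| + |quad (fun i j => D i j - D' i j) x|) := by
      refine integral_mono (H.integrable_quad D').abs
        ((H.integrable_quad D).abs.add (H.integrable_quad _).abs) fun x => ?_
      have h3 := quad_sub D D' x
      have h4 : quad D' x = quad D x - quad (fun i j => D i j - D' i j) x := by rw [h3]; ring
      rw [h4]
      exact abs_sub _ _
    rw [integral_add (H.integrable_quad D).abs (H.integrable_quad _).abs] at h2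
    calc _ ≤ _ := h2
      _ ≤ (2 * Real.sqrt (72 / 5 * ε * 5) + ε) + 25 * κ0 := by
          refine add_le_add (hq.trans ?_) h1
          linarith
      _ = X := by rw [hX]
  refine ⟨⟨hn.orth, hn.pauli, hn.summ, hn.le.trans ?_⟩, fun i j => ?_, ?_⟩
  · nlinarith
  · change |D i j| ≤ κ
    have hκ0X : κ0 ≤ κ := by nlinarith
    by_cases hi : i = 0
    · subst hi; exact (hrow j).trans hκ0X
    · by_cases hj : j = 0
      · subst hj; rw [hsym]; exact (hrow i).trans hκ0X
      · have h1 := hinj D' hD'V i j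
        have h2 : D' i j = D i j := by simp only [hD', hi, hj, or_self, if_false]
        rw [h2] at h1
        have h3 : K * ∫ x, |quad D' x| ≤ K * X := by gcongr
        linarith
  · linarith

end

end Vale.Agent.P363.H942
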