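import Vale.Agent.P363.MathlibUsed

/-! Block B7, abstract part: a family of vectors `F j` of a real Hilbert space with
`∑ ⟨u, F j⟩² ≤ 2‖u‖²` (Pauli principle), almost contained in the span of an orthonormal family. -/

namespace Vale.Agent.P363.H942

open Filter Topology

noncomputable section

section Sums

variable {ι : Type*} {a b : ι → ℝ}

theorem summable_mul_of_sq (ha : Summable fun j => a j ^ 2) (hb : Summable fun j => b j ^ 2) :
    Summable fun j => a j * b j := by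
  refine Summable.of_norm_bounded (g := fun j => (a j ^ 2 + b j ^ 2) / 2) ((ha.add hb).div_const 2) ?_
  intro j
  rw [Real.norm_eq_abs, abs_le]
  constructor <;> nlinarith [sq_nonneg (a j - b j), sq_nonneg (a j + b j)]

/-- Cauchy-Schwarz for series. -/
theorem tsum_mul_sq_le (ha : Summable fun j => a j ^ 2) (hb : Summable fun j => b j ^ 2) :
    (∑' j, a j * b j) ^ 2 ≤ (∑' j, a j ^ 2) * ∑' j, b j ^ 2 := by
  have h1 : Tendsto (fun s : Finset ι => ∑ j ∈ s, a j * b j) atTop (𝓝 (∑' j, a j * b j)) :=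
    (summable_mul_of_sq ha hb).hasSum
  have h2 : Tendsto (fun s : Finset ι => ∑ j ∈ s, a j ^ 2) atTop (𝓝 (∑' j, a j ^ 2)) := ha.hasSum
  have h3 : Tendsto (fun s : Finset ι => ∑ j ∈ s, b j ^ 2) atTop (𝓝 (∑' j, b j ^ 2)) := hb.hasSum
  refine le_of_tendsto_of_tendsto (h1.pow 2) (h2.mul h3) (Eventually.of_forall fun s => ?_)
  exact Finset.sum_mul_sq_le_sq_mul_sq s a b

theorem abs_tsum_mul_le (ha : Summable fun j => a j ^ 2) (hb : Summable fun j => b j ^ 2)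
    {A B : ℝ} (hA : ∑' j, a j ^ 2 ≤ A) (hB : ∑' j, b j ^ 2 ≤ B) :
    |∑' j, a j * b j| ≤ Real.sqrt (A * B) := by
  have h0 : 0 ≤ ∑' j, a j ^ 2 := tsum_nonneg fun j => sq_nonneg _
  have h0' : 0 ≤ ∑' j, b j ^ 2 := tsum_nonneg fun j => sq_nonneg _
  have h := tsum_mul_sq_le ha hb
  have h1 : (∑' j, a j ^ 2) * ∑' j, b j ^ 2 ≤ A * B :=
    mul_le_mul hA hB h0' (h0.trans hA)
  rw [← Real.sqrt_sq_eq_abs]
  exact Real.sqrt_le_sqrt (h.trans h1)

end Sums

variable {H : Type*} [NormedAddCommGroup H] [InnerProductSpace ℝ H] {ι : Type*}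

/-- the symmetric bilinear form `⟨u, γ w⟩` of `γ = ∑ |F j⟩⟨F j|`. -/
def Bf (F : ι → H) (u w : H) : ℝ := ∑' j, inner ℝ u (F j) * inner ℝ w (F j)

/-- Pauli principle (with spin multiplicity 2). -/
structure Pauli (F : ι → H) : Prop where
  summ : ∀ u : H, Summable fun j => (inner ℝ u (F j) : ℝ) ^ 2
  le : ∀ u : H, ∑' j, (inner ℝ u (F j) : ℝ) ^ 2 ≤ 2 * ‖u‖ ^ 2

variable {F : ι → H}

theorem Pauli.summ_mul (hF : Pauli F) (u w : H) :
    Summable fun j => (inner ℝ u (F j) : ℝ) * inner ℝ w (F j) :=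
  summable_mul_of_sq (hF.summ u) (hF.summ w)

theorem Bf_self (u : H) : Bf F u u = ∑' j, (inner ℝ u (F j) : ℝ) ^ 2 := by
  simp only [Bf, sq]

theorem Bf_self_nonneg (u : H) : 0 ≤ Bf F u u := by
  rw [Bf_self]; exact tsum_nonneg fun j => sq_nonneg _

theorem Bf_comm (u w : H) : Bf F u w = Bf F w u := by
  simp only [Bf, mul_comm]

theorem Pauli.self_le (hF : Pauli F) (u : H) : Bf F u u ≤ 2 * ‖u‖ ^ 2 := by
  rw [Bf_self]; exact hF.le u

theorem Pauli.add_left (hF : Pauli F) (u v w : H) : Bf F (u + v) w = Bf F u w + Bf F v w := by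
  simp only [Bf, inner_add_left, add_mul]
  exact (hF.summ_mul u w).tsum_add (hF.summ_mul v w)

theorem Pauli.smul_left (_hF : Pauli F) (c : ℝ) (u w : H) : Bf F (c • u) w = c * Bf F u w := by
  simp only [Bf, inner_smul_left, mul_assoc]
  exact tsum_mul_left

theorem Pauli.add_right (hF : Pauli F) (u v w : H) : Bf F u (v + w) = Bf F u v + Bf F u w := by
  rw [Bf_comm, hF.add_left, Bf_comm v, Bf_comm w]

theorem Pauli.smul_right (hF : Pauli F) (c : ℝ) (u w : H) : Bf F u (c • w) = c * Bf F u w := by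
  rw [Bf_comm, hF.smul_left, Bf_comm]

theorem Pauli.sum_left (hF : Pauli F) {κ : Type*} (s : Finset κ) (u : κ → H) (w : H) :
    Bf F (∑ i ∈ s, u i) w = ∑ i ∈ s, Bf F (u i) w := by
  classical
  induction s using Finset.induction_on with
  | empty => simp [Bf]
  | insert i s hi ih => rw [Finset.sum_insert hi, Finset.sum_insert hi, hF.add_left, ih]

theorem Pauli.sum_right (hF : Pauli F) {κ : Type*} (s : Finset κ) (u : κ → H) (w : H) :
    Bf F w (∑ i ∈ s, u i) = ∑ i ∈ s, Bf F w (u i) := by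
  rw [Bf_comm, hF.sum_left]
  exact Finset.sum_congr rfl fun i _ => Bf_comm _ _

/-- Cauchy-Schwarz for the nonnegative form `2⟨u,w⟩ - ⟨u,γw⟩`. -/
theorem Pauli.cs (hF : Pauli F) (u w : H) :
    (2 * inner ℝ u w - Bf F u w) ^ 2 ≤
      (2 * ‖u‖ ^ 2 - Bf F u u) * (2 * ‖w‖ ^ 2 - Bf F w w) := by
  set a := 2 * ‖u‖ ^ 2 - Bf F u u with ha
  set b := 2 * ‖w‖ ^ 2 - Bf F w w with hb
  set s := 2 * inner ℝ u w - Bf F u w with hs
  have ha0 : 0 ≤ a := by have := hF.self_le u; linarith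
  have hb0 : 0 ≤ b := by have := hF.self_le w; linarith
  have key : ∀ t : ℝ, 0 ≤ a + 2 * t * s + t ^ 2 * b := by
    intro t
    have h1 := hF.self_le (u + t • w)
    have h2 : ‖u + t • w‖ ^ 2 = ‖u‖ ^ 2 + 2 * t * inner ℝ u w + t ^ 2 * ‖w‖ ^ 2 := by
      rw [norm_add_sq_real, inner_smul_right, norm_smul, mul_pow, Real.norm_eq_abs, sq_abs]
      ring
    have h3 : Bf F (u + t • w) (u + t • w) =
        Bf F u u + 2 * t * Bf F u w + t ^ 2 * Bf F w w := by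
      rw [hF.add_left, hF.add_right, hF.add_right, hF.smul_left, hF.smul_left, hF.smul_right,
        hF.smul_right, Bf_comm w u]
      ring
    rw [h2, h3] at h1
    simp only [ha, hb, hs]
    nlinarith
  by_cases hb1 : b = 0
  · -- then `s = 0`
    have h2 : s = 0 := by
      by_contra hne
      have h3 := key (-(a + 1) / (2 * s))
      rw [hb1] at h3
      have h4 : 2 * (-(a + 1) / (2 * s)) * s = -(a + 1) := by field_simp
      rw [h4] at h3
      linarith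
    rw [h2, hb1]; simp
  · have hbpos : 0 < b := lt_of_le_of_ne hb0 (Ne.symm hb1)
    have h3 := key (-s / b)
    have h4 : a + 2 * (-s / b) * s + (-s / b) ^ 2 * b = a - s ^ 2 / b := by
      field_simp; ring
    rw [h4] at h3
    have h5 : s ^ 2 / b ≤ a := by linarith
    rwa [div_le_iff₀ hbpos] at h5

/-- if `e₀` is almost fully occupied, `γ e₀ ≈ 2 e₀`. -/
theorem Pauli.off (hF : Pauli F) {e₀ : H} (he : ‖e₀‖ = 1) {δ : ℝ} (hδ : 2 - δ ≤ Bf F e₀ e₀)
    (w : H) : |2 * inner ℝ e₀ w - Bf F e₀ w| ≤ Real.sqrt (2 * δ) * ‖w‖ := by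
  have h := hF.cs e₀ w
  have h1 : 2 * ‖e₀‖ ^ 2 - Bf F e₀ e₀ ≤ δ := by rw [he]; linarith
  have h2 : 2 * ‖w‖ ^ 2 - Bf F w w ≤ 2 * ‖w‖ ^ 2 := by have := Bf_self_nonneg (F := F) w; linarith
  have h3 : 0 ≤ 2 * ‖w‖ ^ 2 - Bf F w w := by have := hF.self_le w; linarith
  have h4 : 0 ≤ 2 * ‖e₀‖ ^ 2 - Bf F e₀ e₀ := by have := hF.self_le e₀; linarith
  have h5 : (2 * inner ℝ e₀ w - Bf F e₀ w) ^ 2 ≤ δ * (2 * ‖w‖ ^ 2) :=
    h.trans (mul_le_mul h1 h2 h3 (h4.trans h1))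
  have hδ0 : 0 ≤ δ := h4.trans h1
  rw [← Real.sqrt_sq_eq_abs]
  have h6 : Real.sqrt (2 * δ) * ‖w‖ = Real.sqrt (δ * (2 * ‖w‖ ^ 2)) := by
    have : δ * (2 * ‖w‖ ^ 2) = (2 * δ) * ‖w‖ ^ 2 := by ring
    rw [this, Real.sqrt_mul (x := 2 * δ) (by linarith), Real.sqrt_sq (norm_nonneg _)]
  rw [h6]
  exact Real.sqrt_le_sqrt h5

/-- remainder of the projection onto the span of `e`. -/
def rem (e : Fin 5 → H) (v : H) : H := v - ∑ i, (inner ℝ (e i) v : ℝ) • e i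

theorem norm_rem_sq {e : Fin 5 → H} (he : Orthonormal ℝ e) (v : H) :
    ‖rem e v‖ ^ 2 = ‖v‖ ^ 2 - ∑ i, (inner ℝ (e i) v : ℝ) ^ 2 := by
  unfold rem
  have h1 : inner ℝ v (∑ i, (inner ℝ (e i) v : ℝ) • e i) = ∑ i, (inner ℝ (e i) v : ℝ) ^ 2 := by
    rw [inner_sum]
    refine Finset.sum_congr rfl fun i _ => ?_
    rw [inner_smul_right, real_inner_comm (e i) v, sq]
  have h2 : ‖∑ i, (inner ℝ (e i) v : ℝ) • e i‖ ^ 2 = ∑ i, (inner ℝ (e i) v : ℝ) ^ 2 := by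
    rw [← real_inner_self_eq_norm_sq, he.inner_sum]
    simp [sq]
  rw [norm_sub_sq_real, h1, h2]
  ring

theorem inner_e_rem {e : Fin 5 → H} (he : Orthonormal ℝ e) (i : Fin 5) (v : H) :
    inner ℝ (e i) (rem e v) = (0 : ℝ) := by
  unfold rem
  rw [inner_sub_right, he.inner_right_fintype]
  simp

theorem inner_rem_rem {e : Fin 5 → H} (he : Orthonormal ℝ e) (u v : H) :
    inner ℝ (rem e u) v = inner ℝ (rem e u) (rem e v) := by
  conv_lhs => rw [show v = rem e v + ∑ i, (inner ℝ (e i) v : ℝ) • e i by simp [rem]]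
  rw [inner_add_right, inner_sum]
  have : ∀ i, inner ℝ (rem e u) ((inner ℝ (e i) v : ℝ) • e i) = (0 : ℝ) := by
    intro i
    rw [inner_smul_right, real_inner_comm (e i) (rem e u), inner_e_rem he, mul_zero]
  simp [this]

/-- data: family nearly supported on the span of `e`. -/
structure Near (e : Fin 5 → H) (F : ι → H) (η : ℝ) : Prop where
  orth : Orthonormal ℝ e
  pauli : Pauli F
  summ : Summable fun j => ‖rem e (F j)‖ ^ 2
  le : ∑' j, ‖rem e (F j)‖ ^ 2 ≤ η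

variable {e : Fin 5 → H} {η : ℝ}

theorem Near.eta_nonneg (h : Near e F η) : 0 ≤ η :=
  (tsum_nonneg fun _ => sq_nonneg _).trans h.le

/-- the form on the remainder. -/
theorem Near.rem_le (h : Near e F η) (u : H) : Bf F (rem e u) (rem e u) ≤ η * ‖u‖ ^ 2 := by
  rw [Bf_self]
  have h1 : ∀ j, (inner ℝ (rem e u) (F j) : ℝ) ^ 2 ≤ ‖rem e (F j)‖ ^ 2 * ‖u‖ ^ 2 := by
    intro j
    rw [inner_rem_rem h.orth]
    have h2 := abs_real_inner_le_norm (rem e u) (rem e (F j))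
    have h3 : ‖rem e u‖ ≤ ‖u‖ := by
      have h4 := norm_rem_sq h.orth u
      have h5 : 0 ≤ ∑ i, (inner ℝ (e i) u : ℝ) ^ 2 := Finset.sum_nonneg fun i _ => sq_nonneg _
      exact (sq_le_sq₀ (norm_nonneg _) (norm_nonneg _)).1 (by linarith)
    calc (inner ℝ (rem e u) (rem e (F j)) : ℝ) ^ 2 = |inner ℝ (rem e u) (rem e (F j))| ^ 2 := by
          rw [sq_abs]
      _ ≤ (‖rem e u‖ * ‖rem e (F j)‖) ^ 2 := by gcongr
      _ ≤ (‖u‖ * ‖rem e (F j)‖) ^ 2 := by gcongr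
      _ = _ := by ring
  calc ∑' j, (inner ℝ (rem e u) (F j) : ℝ) ^ 2 ≤ ∑' j, ‖rem e (F j)‖ ^ 2 * ‖u‖ ^ 2 :=
        (h.pauli.summ _).tsum_le_tsum h1 (h.summ.mul_right _)
    _ = (∑' j, ‖rem e (F j)‖ ^ 2) * ‖u‖ ^ 2 := tsum_mul_right
    _ ≤ η * ‖u‖ ^ 2 := by gcongr; exact h.le

/-- Cauchy-Schwarz for `Bf`. -/
theorem Pauli.abs_le (hF : Pauli F) (u w : H) :
    |Bf F u w| ≤ Real.sqrt (Bf F u u * Bf F w w) := by
  refine abs_tsum_mul_le (hF.summ u) (hF.summ w) ?_ ?_ <;> rw [Bf_self]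

/-- Minkowski for `Bf`. -/
theorem Pauli.minkowski (hF : Pauli F) (u w : H) {a b : ℝ} (ha : 0 ≤ a) (hb : 0 ≤ b)
    (hu : Bf F u u ≤ a ^ 2) (hw : Bf F w w ≤ b ^ 2) : Bf F (u + w) (u + w) ≤ (a + b) ^ 2 := by
  have h1 : Bf F u w ≤ a * b := by
    refine (le_abs_self _).trans ((hF.abs_le u w).trans ?_)
    rw [← Real.sqrt_sq (mul_nonneg ha hb)]
    refine Real.sqrt_le_sqrt ?_
    rw [mul_pow]
    exact mul_le_mul hu hw (Bf_self_nonneg w) (sq_nonneg a)
  have h2 : Bf F (u + w) (u + w) = Bf F u u + 2 * Bf F u w + Bf F w w := by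
    rw [hF.add_left, hF.add_right, hF.add_right, Bf_comm w u]; ring
  rw [h2]; nlinarith

theorem eq_proj_add_rem (e : Fin 5 → H) (v : H) :
    v = (∑ i, (inner ℝ (e i) v : ℝ) • e i) + rem e v := by simp [rem]

theorem abs_coef_le {e : Fin 5 → H} (he : Orthonormal ℝ e) (i : Fin 5) (v : H) :
    |(inner ℝ (e i) v : ℝ)| ≤ ‖v‖ := by
  have h := abs_real_inner_le_norm (e i) v
  rwa [he.1 i, one_mul] at h

theorem sum_coef_sq_le {e : Fin 5 → H} (he : Orthonormal ℝ e) (v : H) :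
    ∑ i, (inner ℝ (e i) v : ℝ) ^ 2 ≤ ‖v‖ ^ 2 := by
  have := norm_rem_sq he v
  have h2 := sq_nonneg ‖rem e v‖
  linarith

/-- the projected part. -/
theorem Near.proj_le (h : Near e F η) {occ : Fin 5 → ℝ} {κ f : ℝ} (hf : 0 ≤ f)
    (hA : ∀ i j, |Bf F (e i) (e j) - if i = j then occ i else 0| ≤ κ)
    (hocc : ∀ i, i ≠ 0 → occ i ≤ f) {u : H} (hu : inner ℝ (e 0) u = (0 : ℝ)) :
    Bf F (∑ i, (inner ℝ (e i) u : ℝ) • e i) (∑ i, (inner ℝ (e i) u : ℝ) • e i) ≤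
      (f + 5 * κ) * ‖u‖ ^ 2 := by
  have hκ : 0 ≤ κ := (abs_nonneg _).trans (hA 0 0)
  set c : Fin 5 → ℝ := fun i => inner ℝ (e i) u with hc
  have e1 : Bf F (∑ i, c i • e i) (∑ i, c i • e i) = ∑ i, ∑ j, c i * c j * Bf F (e i) (e j) := by
    rw [h.pauli.sum_left]
    refine Finset.sum_congr rfl fun i _ => ?_
    rw [h.pauli.smul_left, h.pauli.sum_right, Finset.mul_sum]
    refine Finset.sum_congr rfl fun j _ => ?_
    rw [h.pauli.smul_right]; ring
  have e2 : ∀ i j, c i * c j * Bf F (e i) (e j) ≤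
      (if i = j then f * c i ^ 2 else 0) + κ * (|c i| * |c j|) := by
    intro i j
    have h1 : c i * c j * (Bf F (e i) (e j) - if i = j then occ i else 0) ≤
        κ * (|c i| * |c j|) := by
      calc _ ≤ |c i * c j * (Bf F (e i) (e j) - if i = j then occ i else 0)| := le_abs_self _
        _ = |c i| * |c j| * |Bf F (e i) (e j) - if i = j then occ i else 0| := by
            rw [abs_mul, abs_mul]
        _ ≤ |c i| * |c j| * κ := by gcongr; exact hA i j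
        _ = _ := by ring
    by_cases hij : i = j
    · subst hij
      simp only [if_true] at h1 ⊢
      have h2 : occ i * c i ^ 2 ≤ f * c i ^ 2 := by
        by_cases hi : i = 0
        · subst hi; simp [hc, hu]
        · exact mul_le_mul_of_nonneg_right (hocc i hi) (sq_nonneg _)
      nlinarith
    · simp only [hij, if_false, sub_zero] at h1 ⊢
      linarith
  have e3 : ∑ i, ∑ j, ((if i = j then f * c i ^ 2 else 0) + κ * (|c i| * |c j|)) =
      f * ∑ i, c i ^ 2 + κ * (∑ i, |c i|) ^ 2 := by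
    simp only [Finset.sum_add_distrib, Finset.sum_ite_eq, Finset.mem_univ, if_true,
      ← Finset.mul_sum, sq (∑ i, |c i|), Finset.sum_mul_sum]
  have e4 : (∑ i, |c i|) ^ 2 ≤ 5 * ∑ i, c i ^ 2 := by
    have := sq_sum_le_card_mul_sum_sq (s := (Finset.univ : Finset (Fin 5))) (f := fun i => |c i|)
    simpa using this
  have e5 : ∑ i, c i ^ 2 ≤ ‖u‖ ^ 2 := sum_coef_sq_le h.orth u
  rw [e1]
  calc ∑ i, ∑ j, c i * c j * Bf F (e i) (e j)
      ≤ ∑ i, ∑ j, ((if i = j then f * c i ^ 2 else 0) + κ * (|c i| * |c j|)) :=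
        Finset.sum_le_sum fun i _ => Finset.sum_le_sum fun j _ => e2 i j
    _ = f * ∑ i, c i ^ 2 + κ * (∑ i, |c i|) ^ 2 := e3
    _ ≤ f * ‖u‖ ^ 2 + κ * (5 * ‖u‖ ^ 2) := by gcongr; exact e4.trans (by linarith)
    _ = _ := by ring

/-- (C2) occupation of a vector orthogonal to `e 0`. -/
theorem Near.occ_le (h : Near e F η) {occ : Fin 5 → ℝ} {κ f : ℝ} (hf : 0 ≤ f)
    (hA : ∀ i j, |Bf F (e i) (e j) - if i = j then occ i else 0| ≤ κ)
    (hocc : ∀ i, i ≠ 0 → occ i ≤ f) {u : H} (hu : inner ℝ (e 0) u = (0 : ℝ)) :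
    Bf F u u ≤ (Real.sqrt (f + 5 * κ) + Real.sqrt η) ^ 2 * ‖u‖ ^ 2 := by
  have hκ : 0 ≤ κ := (abs_nonneg _).trans (hA 0 0)
  have h1 := h.proj_le hf hA hocc hu
  have h2 := h.rem_le u
  have h3 := h.pauli.minkowski (∑ i, (inner ℝ (e i) u : ℝ) • e i) (rem e u)
    (a := Real.sqrt (f + 5 * κ) * ‖u‖) (b := Real.sqrt η * ‖u‖) (by positivity) (by positivity)
    (by rw [mul_pow, Real.sq_sqrt (by positivity)]; exact h1)
    (by rw [mul_pow, Real.sq_sqrt h.eta_nonneg]; exact h2)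
  rw [← eq_proj_add_rem] at h3
  calc _ ≤ _ := h3
    _ = _ := by ring

/-- (C3) `γ e_i ≈ occ_i e_i`, weak form. -/
theorem Near.apply (h : Near e F η) {occ : Fin 5 → ℝ} {κ : ℝ}
    (hA : ∀ i j, |Bf F (e i) (e j) - if i = j then occ i else 0| ≤ κ) (i : Fin 5) (w : H) :
    |Bf F w (e i) - occ i * inner ℝ w (e i)| ≤ (5 * κ + Real.sqrt (2 * η)) * ‖w‖ := by
  have hκ : 0 ≤ κ := (abs_nonneg _).trans (hA 0 0)
  set c : Fin 5 → ℝ := fun i => inner ℝ (e i) w with hc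
  have e0 : Bf F w (e i) = (∑ j, c j * Bf F (e j) (e i)) + Bf F (rem e w) (e i) := by
    conv_lhs => rw [eq_proj_add_rem e w]
    rw [h.pauli.add_left, h.pauli.sum_left]
    congr 1
    exact Finset.sum_congr rfl fun j _ => h.pauli.smul_left _ _ _
  have e1 : occ i * inner ℝ w (e i) = ∑ j, c j * (if j = i then occ j else 0) := by
    simp [hc, real_inner_comm, mul_comm]
  have e2 : |(∑ j, c j * Bf F (e j) (e i)) - ∑ j, c j * (if j = i then occ j else 0)| ≤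
      5 * κ * ‖w‖ := by
    rw [← Finset.sum_sub_distrib]
    refine (Finset.abs_sum_le_sum_abs _ _).trans ?_
    have : ∀ j, |c j * Bf F (e j) (e i) - c j * (if j = i then occ j else 0)| ≤ ‖w‖ * κ := by
      intro j
      rw [← mul_sub, abs_mul]
      exact mul_le_mul (abs_coef_le h.orth j w) (hA j i) (abs_nonneg _) (norm_nonneg _)
    calc ∑ j, |c j * Bf F (e j) (e i) - c j * (if j = i then occ j else 0)|
        ≤ ∑ _j : Fin 5, ‖w‖ * κ := Finset.sum_le_sum fun j _ => this j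
      _ = 5 * κ * ‖w‖ := by simp; ring
  have e3 : |Bf F (rem e w) (e i)| ≤ Real.sqrt (2 * η) * ‖w‖ := by
    refine (h.pauli.abs_le _ _).trans ?_
    have h1 := h.rem_le w
    have h2 := h.pauli.self_le (e i)
    rw [h.orth.1 i] at h2
    have h3 : Bf F (rem e w) (rem e w) * Bf F (e i) (e i) ≤ (2 * η) * ‖w‖ ^ 2 := by
      calc _ ≤ (η * ‖w‖ ^ 2) * (2 * 1 ^ 2) :=
            mul_le_mul h1 h2 (Bf_self_nonneg _) (mul_nonneg h.eta_nonneg (sq_nonneg _))
        _ = _ := by ring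
    refine (Real.sqrt_le_sqrt h3).trans ?_
    rw [Real.sqrt_mul (x := 2 * η) (by have := h.eta_nonneg; linarith), Real.sqrt_sq (norm_nonneg _)]
  rw [e0, e1]
  calc _ = |((∑ j, c j * Bf F (e j) (e i)) - ∑ j, c j * (if j = i then occ j else 0)) +
        Bf F (rem e w) (e i)| := by congr 1; ring
    _ ≤ _ := (abs_add_le _ _).trans (by linarith)

/-- (C4) an (almost) fully occupied unit vector is close to `± e 0`. -/
theorem Near.full (h : Near e F η) {occ : Fin 5 → ℝ} {κ f G δ τ : ℝ} (hf : 0 ≤ f)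
    (hA : ∀ i j, |Bf F (e i) (e j) - if i = j then occ i else 0| ≤ κ)
    (hocc : ∀ i, i ≠ 0 → occ i ≤ f) (hG : (Real.sqrt (f + 5 * κ) + Real.sqrt η) ^ 2 ≤ G)
    (hG2 : G < 2) (hδ : 2 - δ ≤ Bf F (e 0) (e 0)) {φ : H} (hφ : ‖φ‖ = 1)
    (hφ2 : 2 - τ ≤ Bf F φ φ) :
    1 - (inner ℝ (e 0) φ : ℝ) ^ 2 ≤ (τ + 2 * Real.sqrt (2 * δ)) / (2 - G) := by
  set α : ℝ := inner ℝ (e 0) φ with hα
  set v : H := φ - α • e 0 with hv
  have e1 : inner ℝ (e 0) v = (0 : ℝ) := by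
    rw [hv, inner_sub_right, inner_smul_right, real_inner_self_eq_norm_sq, h.orth.1 0]; simp [hα]
  have e2 : φ = α • e 0 + v := by rw [hv]; abel
  have e3 : ‖φ‖ ^ 2 = α ^ 2 + ‖v‖ ^ 2 := by
    rw [e2, norm_add_sq_real, inner_smul_left, e1, norm_smul, h.orth.1 0]; simp
  have e4 : Bf F φ φ = α ^ 2 * Bf F (e 0) (e 0) + 2 * α * Bf F (e 0) v + Bf F v v := by
    rw [e2, h.pauli.add_left, h.pauli.add_right, h.pauli.add_right, h.pauli.smul_left,
      h.pauli.smul_left, h.pauli.smul_right, h.pauli.smul_right, Bf_comm v (e 0)]; ring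
  have e5 := h.pauli.off (h.orth.1 0) hδ v
  rw [e1, mul_zero, zero_sub, abs_neg] at e5
  have e6 := h.occ_le hf hA hocc e1
  have e7 : Bf F v v ≤ G * ‖v‖ ^ 2 := e6.trans (by gcongr)
  have e8 := h.pauli.self_le (e 0)
  rw [h.orth.1 0] at e8
  rw [hφ] at e3
  have hv1 : ‖v‖ ≤ 1 := by nlinarith [norm_nonneg v, sq_nonneg α]
  have hα1 : |α| ≤ 1 := by
    rw [← sq_le_one_iff_abs_le_one]; nlinarith [sq_nonneg ‖v‖]
  have e9 : 2 * α * Bf F (e 0) v ≤ 2 * Real.sqrt (2 * δ) := by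
    have h1 : |Bf F (e 0) v| ≤ Real.sqrt (2 * δ) :=
      e5.trans (by nlinarith [Real.sqrt_nonneg (2 * δ)])
    have h2 : α * Bf F (e 0) v ≤ |α| * |Bf F (e 0) v| := by rw [← abs_mul]; exact le_abs_self _
    have h3 : |α| * |Bf F (e 0) v| ≤ 1 * Real.sqrt (2 * δ) :=
      mul_le_mul hα1 h1 (abs_nonneg _) zero_le_one
    linarith
  rw [le_div_iff₀ (by linarith)]
  have e10 : 1 - α ^ 2 = ‖v‖ ^ 2 := by linarith
  rw [e10]
  nlinarith [sq_nonneg α]

end

end Vale.Agent.P363.H942
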