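import Vale.Agent.P363.H942.B7.Hyd
import Vale.Agent.P363.H942.B7.Hilb

/-! Block B7: from a natural family with small excess energy to the abstract `Near` data. -/

namespace Vale.Agent.P363.H942

open MeasureTheory Filter Topology
open Vale.Agent.P363.Stmt
open Vale.Agent.P363.R.Sob
open Vale.Agent.P363.R.KS (H1 qf KSData dir)
open Vale.Agent.P363.R.Top
open Vale.Agent.P363.H574 (NatFam kinE)

noncomputable section

/-- real `L²(ℝ³)` -/
abbrev L2R : Type := Lp ℝ 2 (volume : Measure R3)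

theorem inner_toLp {f g : R3 → ℝ} (hf : MemLp f 2 (volume : Measure R3))
    (hg : MemLp g 2 (volume : Measure R3)) :
    inner ℝ (hf.toLp f) (hg.toLp g) = ∫ x, f x * g x := by
  rw [L2.inner_def]
  refine integral_congr_ae ?_
  filter_upwards [hf.coeFn_toLp, hg.coeFn_toLp] with x h1 h2
  rw [h1, h2]
  simp [mul_comm]

theorem norm_toLp_sq {f : R3 → ℝ} (hf : MemLp f 2 (volume : Measure R3)) :
    ‖hf.toLp f‖ ^ 2 = ∫ x, f x ^ 2 := by
  rw [← real_inner_self_eq_norm_sq, inner_toLp]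
  simp only [sq]

theorem inner_coe {f : R3 → ℝ} (hf : MemLp f 2 (volume : Measure R3)) (u : L2R) :
    inner ℝ u (hf.toLp f) = ∫ x, u x * f x := by
  conv_lhs => rw [show u = (Lp.memLp u).toLp u from (Lp.toLp_coeFn u _).symm]
  exact inner_toLp _ _

theorem norm_coe_sq (u : L2R) : ‖u‖ ^ 2 = ∫ x, u x ^ 2 := by
  conv_lhs => rw [show u = (Lp.memLp u).toLp u from (Lp.toLp_coeFn u _).symm]
  exact norm_toLp_sq _

variable {gorb : Fin 5 → Fin 3 → R3 → ℝ}

/-- the orbitals as elements of `L²`. -/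
def Hyd.e (H : Hyd gorb) (i : Fin 5) : L2R := (H.h1 i).mem.toLp (orb i)

theorem Hyd.orthonormal (H : Hyd gorb) : Orthonormal ℝ H.e := by
  rw [orthonormal_iff_ite]
  intro i j
  rw [Hyd.e, Hyd.e, inner_toLp, H.orth]

variable {v ρ : R3 → ℝ} {E : ℝ} {ι : Type} {h : ι → R3 → ℝ} {g : ι → Fin 3 → R3 → ℝ}

/-- the natural family as elements of `L²`. -/
def nF (N : NatFam v ρ E h g) (j : ι) : L2R := (N.h1 j).mem.toLp (h j)

theorem inner_nF (N : NatFam v ρ E h g) {u : R3 → ℝ} (hu : MemLp u 2 (volume : Measure R3)) (j : ι) :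
    inner ℝ (hu.toLp u) (nF N j) = ∫ x, u x * h j x := inner_toLp _ _

theorem Bf_nF (N : NatFam v ρ E h g) {u w : R3 → ℝ} (hu : MemLp u 2 (volume : Measure R3))
    (hw : MemLp w 2 (volume : Measure R3)) :
    Bf (nF N) (hu.toLp u) (hw.toLp w) = ∑' j, (∫ x, u x * h j x) * ∫ x, w x * h j x := by
  unfold Bf
  exact tsum_congr fun j => by rw [inner_nF, inner_nF]

theorem pauli_nF (N : NatFam v ρ E h g) : Pauli (nF N) := by
  constructor
  · intro u
    have := (N.pauli u (Lp.memLp u)).1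
    refine this.congr fun j => ?_
    rw [nF, inner_coe]
  · intro u
    have := (N.pauli u (Lp.memLp u)).2
    rw [norm_coe_sq]
    refine le_trans (le_of_eq ?_) this
    exact tsum_congr fun j => by rw [nF, inner_coe]

theorem coef_e (H : Hyd gorb) (N : NatFam v ρ E h g) (i : Fin 5) (j : ι) :
    inner ℝ (H.e i) (nF N j) = ∫ x, orb i x * h j x := inner_nF N _ j

theorem norm_nF_sq (N : NatFam v ρ E h g) (j : ι) : ‖nF N j‖ ^ 2 = ∫ x, h j x ^ 2 :=
  norm_toLp_sq _

/-- the potential energy of the family. -/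
theorem pot_hasSum [Countable ι] (H : Hyd gorb) (N : NatFam v ρ E h g)
    (hρ : Integrable (fun x => ρ x / ‖x‖)) :
    HasSum (fun j => ∫ x, h j x ^ 2 / ‖x‖) (∫ x, ρ x / ‖x‖) := by
  have hs : ∀ᵐ x : R3, HasSum (fun j => h j x ^ 2 / ‖x‖) (ρ x / ‖x‖) := by
    filter_upwards [N.dens] with x hx
    exact hx.div_const _
  refine hasSum_integral_of_dominated_convergence (fun j x => h j x ^ 2 / ‖x‖)
    (fun j => (H.pot_int _ _ (N.h1 j)).1) (fun j => Eventually.of_forall fun x => ?_) ?_ ?_ hs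
  · rw [Real.norm_of_nonneg (by positivity)]
  · filter_upwards [hs] with x hx
    exact hx.summable
  · refine hρ.congr ?_
    filter_upwards [hs] with x hx
    exact hx.tsum_eq.symm

/-- the basic energy inequality, summed over the family. -/
theorem energy_sum [Countable ι] (H : Hyd gorb) (N : NatFam v ρ E h g)
    (hρ : Integrable (fun x => ρ x / ‖x‖)) {ε : ℝ}
    (hen : (1 / 2) * (∑' j, ∫ x, ∑ k, g j k x ^ 2) - (∫ x, ρ x / ‖x‖) ≤ -11 / 8 + ε) :
    (3 / 8) * (2 - Bf (nF N) (H.e 0) (H.e 0)) + (5 / 72) * (∑' j, ‖rem H.e (nF N j)‖ ^ 2) ≤ ε ∧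
      Summable fun j => ‖rem H.e (nF N j)‖ ^ 2 := by
  have hP := pauli_nF N
  have hc : ∀ i, HasSum (fun j => (inner ℝ (H.e i) (nF N j) : ℝ) ^ 2) (Bf (nF N) (H.e i) (H.e i)) := by
    intro i
    rw [Bf_self]
    exact (hP.summ (H.e i)).hasSum
  have hm : HasSum (fun j => ‖nF N j‖ ^ 2) 5 := by
    refine N.mass.congr_fun ?_
    intro j; rw [norm_nF_sq]
  have hrem : HasSum (fun j => ‖rem H.e (nF N j)‖ ^ 2) (5 - ∑ i, Bf (nF N) (H.e i) (H.e i)) := by
    have h1 := hm.sub (hasSum_sum fun i (_ : i ∈ (Finset.univ : Finset (Fin 5))) => hc i)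
    refine h1.congr_fun ?_
    intro j
    rw [norm_rem_sq H.orthonormal]
  refine ⟨?_, hrem.summable⟩
  have hk := N.kin.hasSum
  have hp := pot_hasSum H N hρ
  have hR := (hk.mul_left (1 / 2)).sub hp
  have hL : HasSum (fun j => (∑ i, orbE i * (inner ℝ (H.e i) (nF N j) : ℝ) ^ 2) -
      (1 / 18) * ‖rem H.e (nF N j)‖ ^ 2)
      ((∑ i, orbE i * Bf (nF N) (H.e i) (H.e i)) -
        (1 / 18) * (5 - ∑ i, Bf (nF N) (H.e i) (H.e i))) :=
    (hasSum_sum fun i (_ : i ∈ (Finset.univ : Finset (Fin 5))) => (hc i).mul_left (orbE i)).sub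
      (hrem.mul_left (1 / 18))
  have hle := hasSum_le (fun j => ?_) hL hR
  · rw [hrem.tsum_eq]
    have h2 := hle.trans hen
    have q0 : orbE 0 = -1 / 2 := if_pos rfl
    have q1 : orbE 1 = -1 / 8 := if_neg (by decide)
    have q2 : orbE 2 = -1 / 8 := if_neg (by decide)
    have q3 : orbE 3 = -1 / 8 := if_neg (by decide)
    have q4 : orbE 4 = -1 / 8 := if_neg (by decide)
    simp only [Fin.sum_univ_five, q0, q1, q2, q3, q4] at h2 ⊢
    linarith
  · have h3 := H.gap _ _ (N.h1 j)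
    rw [norm_rem_sq H.orthonormal, norm_nF_sq]
    simp only [coef_e]
    linarith

end

end Vale.Agent.P363.H942
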