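import Vale.Agent.P363.H942.B7.Delta2
import Vale.Agent.P363.H700.Orb
import Mathlib.Analysis.Complex.ExponentialBounds

/-! Block B7: the cutoff function `χ` supported in the ball of radius 18, used in (K1). -/

namespace Vale.Agent.P363.H942

open MeasureTheory Filter Topology
open Vale.Agent.P363.Stmt
open Vale.Agent.P363.R.Sob
open Vale.Agent.P363.R.KS (H1 qf KSData dir test_bdd H1.mul_test H1.sub H1.add H1.const_mul)
open Vale.Agent.P363.R.Top
open Vale.Agent.P363.H574 (NatFam kinE)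
open scoped ContDiff

noncomputable section

/-- the cutoff function -/
def chi (x : R3) : ℝ := expNegInvGlue (1 - ‖x‖ ^ 2 / 324)

theorem chi_zero {x : R3} (hx : 18 ≤ ‖x‖) : chi x = 0 := by
  apply expNegInvGlue.zero_of_nonpos
  have : (324 : ℝ) ≤ ‖x‖ ^ 2 := by nlinarith
  have h2 : 1 ≤ ‖x‖ ^ 2 / 324 := by rw [le_div_iff₀ (by norm_num)]; linarith
  linarith

theorem test_chi : Test chi := by
  constructor
  · exact expNegInvGlue.contDiff.comp (contDiff_const.sub ((contDiff_norm_sq ℝ).div_const _))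
  · exact HasCompactSupport.intro (isCompact_closedBall (0 : R3) 18) fun x hx => by
      apply chi_zero
      simp only [Metric.mem_closedBall, dist_zero_right, not_le] at hx
      exact hx.le

theorem glue_deriv (t : ℝ) : HasDerivAt expNegInvGlue ((t⁻¹) ^ 2 * expNegInvGlue t) t := by
  have := expNegInvGlue.hasDerivAt_polynomial_eval_inv_mul 1 t
  simpa using this

theorem glue_deriv_le (t : ℝ) : |(t⁻¹) ^ 2 * expNegInvGlue t| ≤ 2 := by
  by_cases ht : t ≤ 0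
  · rw [expNegInvGlue.zero_of_nonpos ht]; simp
  · push Not at ht
    have h1 : expNegInvGlue t = Real.exp (-t⁻¹) := by
      simp [expNegInvGlue, not_le.2 ht]
    rw [h1, abs_of_nonneg (by positivity), Real.exp_neg]
    have hy : 0 < t⁻¹ := inv_pos.2 ht
    have h2 := Real.quadratic_le_exp_of_nonneg hy.le
    rw [← div_eq_mul_inv, div_le_iff₀ (Real.exp_pos _)]
    nlinarith

theorem chi_fderiv (x : R3) (i : Fin 3) : fderiv ℝ chi x (dir i) =
    (((1 - ‖x‖ ^ 2 / 324)⁻¹) ^ 2 * expNegInvGlue (1 - ‖x‖ ^ 2 / 324)) * (-(2 * x i / 324)) := by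
  have h1 : HasFDerivAt (fun y : R3 => ‖y‖ ^ 2) (2 • innerSL ℝ x) x :=
    (hasStrictFDerivAt_norm_sq x).hasFDerivAt
  have h2 : HasFDerivAt (fun y : R3 => 1 - ‖y‖ ^ 2 / 324) (-((324 : ℝ)⁻¹ • (2 • innerSL ℝ x))) x := by
    have h3 := (h1.const_mul (324 : ℝ)⁻¹).const_sub 1
    refine h3.congr_of_eventuallyEq (Eventually.of_forall fun y => ?_)
    simp only; ring
  have h4 := (glue_deriv (1 - ‖x‖ ^ 2 / 324)).comp_hasFDerivAt x h2
  have h5 : HasFDerivAt chi _ x := h4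
  rw [h5.fderiv]
  have h6 : inner ℝ x (dir i) = x i := by
    simp [dir, EuclideanSpace.inner_single_right]
  have h7 : (-((324 : ℝ)⁻¹ • (2 • innerSL ℝ x)) : R3 →L[ℝ] ℝ) (dir i) = -(2 * x i / 324) := by
    rw [neg_apply, smul_apply, smul_apply, innerSL_apply_apply, h6, smul_eq_mul, nsmul_eq_mul]
    push_cast; ring
  rw [smul_apply, h7, smul_eq_mul]

theorem chi_grad_le (x : R3) : ∑ i, (fderiv ℝ chi x (dir i)) ^ 2 ≤ 16 / 104976 * ‖x‖ ^ 2 := by
  have h1 : ∀ i, (fderiv ℝ chi x (dir i)) ^ 2 ≤ 16 / 104976 * (x i) ^ 2 := by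
    intro i
    rw [chi_fderiv, mul_pow]
    have h2 := glue_deriv_le (1 - ‖x‖ ^ 2 / 324)
    have h3 : (((1 - ‖x‖ ^ 2 / 324)⁻¹) ^ 2 * expNegInvGlue (1 - ‖x‖ ^ 2 / 324)) ^ 2 ≤ 2 ^ 2 := by
      rw [← sq_abs]; exact pow_le_pow_left₀ (abs_nonneg _) h2 2
    calc _ ≤ 2 ^ 2 * (-(2 * x i / 324)) ^ 2 := mul_le_mul_of_nonneg_right h3 (sq_nonneg _)
      _ = _ := by ring
  refine (Finset.sum_le_sum fun i _ => h1 i).trans (le_of_eq ?_)
  rw [← Finset.mul_sum, EuclideanSpace.norm_sq_eq]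
  simp

theorem chi_sq_ge (x : R3) : Real.exp (-(9 / 4)) * (1 - ‖x‖ ^ 2 / 36) ≤ chi x ^ 2 := by
  by_cases hx : ‖x‖ ^ 2 ≤ 36
  · have h1 : (8 : ℝ) / 9 ≤ 1 - ‖x‖ ^ 2 / 324 := by linarith
    have h2 : 0 < 1 - ‖x‖ ^ 2 / 324 := by linarith
    have h3 : chi x = Real.exp (-(1 - ‖x‖ ^ 2 / 324)⁻¹) := by
      simp [chi, expNegInvGlue, not_le.2 h2]
    have h4 : (1 - ‖x‖ ^ 2 / 324)⁻¹ ≤ 9 / 8 := by
      rw [inv_le_comm₀ h2 (by norm_num)]; linarith
    have h5 : Real.exp (-(9 / 8)) ≤ chi x := by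
      rw [h3]; exact Real.exp_le_exp.2 (by linarith)
    have h6 : Real.exp (-(9 / 4)) = Real.exp (-(9 / 8)) ^ 2 := by
      rw [← Real.exp_nat_mul]; norm_num
    calc _ ≤ Real.exp (-(9 / 4)) * 1 := by
          refine mul_le_mul_of_nonneg_left ?_ (Real.exp_pos _).le
          have : 0 ≤ ‖x‖ ^ 2 := by positivity
          linarith
      _ = Real.exp (-(9 / 8)) ^ 2 := by rw [mul_one, h6]
      _ ≤ chi x ^ 2 := pow_le_pow_left₀ (Real.exp_pos _).le h5 2
  · push Not at hx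
    have h1 : 1 - ‖x‖ ^ 2 / 36 ≤ 0 := by linarith
    exact (mul_nonpos_of_nonneg_of_nonpos (Real.exp_pos _).le h1).trans (sq_nonneg _)

theorem chi_nonneg (x : R3) : 0 ≤ chi x := expNegInvGlue.nonneg _

theorem chi_le_one (x : R3) : chi x ≤ 1 := by
  by_cases h : 1 - ‖x‖ ^ 2 / 324 ≤ 0
  · rw [chi, expNegInvGlue.zero_of_nonpos h]; norm_num
  · push Not at h
    have h3 : chi x = Real.exp (-(1 - ‖x‖ ^ 2 / 324)⁻¹) := by
      simp [chi, expNegInvGlue, not_le.2 h]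
    rw [h3, Real.exp_le_one_iff]
    have := inv_pos.2 h
    linarith

theorem chi_grad_le_one (x : R3) : ∑ i, (fderiv ℝ chi x (dir i)) ^ 2 ≤ 1 := by
  by_cases h : 18 ≤ ‖x‖
  · have h1 : ∀ i, fderiv ℝ chi x (dir i) = 0 := by
      intro i
      rw [chi_fderiv]
      have h2 : expNegInvGlue (1 - ‖x‖ ^ 2 / 324) = 0 := chi_zero h
      rw [h2]; ring
    simp [h1]
  · push Not at h
    have h1 := chi_grad_le x
    have h2 : ‖x‖ ^ 2 ≤ 324 := by nlinarith [norm_nonneg x]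
    linarith

theorem orb_zero_sq (x : R3) : orb 0 x ^ 2 = Real.exp (-(2 * ‖x‖)) / Real.pi := by
  simp only [orb]
  rw [div_pow, Real.sq_sqrt Real.pi_pos.le, ← Real.exp_nat_mul]
  congr 2
  push_cast; ring

theorem orb_zero_int : ∫ x : R3, orb 0 x ^ 2 = 1 := by
  have h := H700.integral_norm_pow_exp 0 (a := 2) (by norm_num)
  have e : ∀ x : R3, orb 0 x ^ 2 = Real.pi⁻¹ * (‖x‖ ^ 0 * Real.exp (-(2 * ‖x‖))) := by
    intro x; rw [orb_zero_sq]; ring
  simp_rw [e]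
  rw [integral_const_mul, h]
  norm_num [Nat.factorial]
  field_simp

theorem orb_zero_int_sq : ∫ x : R3, ‖x‖ ^ 2 * orb 0 x ^ 2 = 3 := by
  have h := H700.integral_norm_pow_exp 2 (a := 2) (by norm_num)
  have e : ∀ x : R3, ‖x‖ ^ 2 * orb 0 x ^ 2 = Real.pi⁻¹ * (‖x‖ ^ 2 * Real.exp (-(2 * ‖x‖))) := by
    intro x; rw [orb_zero_sq]; ring
  simp_rw [e]
  rw [integral_const_mul, h]
  norm_num [Nat.factorial]
  field_simp

theorem orb_zero_integrable : Integrable (fun x : R3 => orb 0 x ^ 2) := by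
  have h := (H700.integrable_pow_exp 0 (a := 2) (by norm_num)).const_mul Real.pi⁻¹
  refine h.congr (Eventually.of_forall fun x => ?_)
  simp only; rw [orb_zero_sq]; ring

theorem orb_zero_integrable_sq : Integrable (fun x : R3 => ‖x‖ ^ 2 * orb 0 x ^ 2) := by
  have h := (H700.integrable_pow_exp 2 (a := 2) (by norm_num)).const_mul Real.pi⁻¹
  refine h.congr (Eventually.of_forall fun x => ?_)
  simp only; rw [orb_zero_sq]; ring

theorem continuous_chi_grad : Continuous (fun x : R3 => ∑ i, (fderiv ℝ chi x (dir i)) ^ 2) :=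
  continuous_finsetSum _ fun i _ => ((test_chi.fderiv (dir i)).continuous).pow 2

theorem chi_X1 : ∫ x, (∑ i, (fderiv ℝ chi x (dir i)) ^ 2) * orb 0 x ^ 2 ≤ 48 / 104976 := by
  have h1 : ∫ x, (∑ i, (fderiv ℝ chi x (dir i)) ^ 2) * orb 0 x ^ 2 ≤
      ∫ x, 16 / 104976 * (‖x‖ ^ 2 * orb 0 x ^ 2) := by
    refine integral_mono ?_ (orb_zero_integrable_sq.const_mul _) fun x => ?_
    · refine orb_zero_integrable.bdd_mul continuous_chi_grad.aestronglyMeasurable (c := 1)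
        (Eventually.of_forall fun x => ?_)
      rw [Real.norm_of_nonneg (Finset.sum_nonneg fun i _ => sq_nonneg _)]
      exact chi_grad_le_one x
    · simp only
      rw [← mul_assoc]
      exact mul_le_mul_of_nonneg_right (chi_grad_le x) (sq_nonneg _)
  rw [integral_const_mul, orb_zero_int_sq] at h1
  linarith

theorem exp_bound : (1 : ℝ) / 21 ≤ Real.exp (-(9 / 4)) := by
  have h1 : Real.exp (9 / 4) ≤ 21 := by
    calc Real.exp (9 / 4) ≤ Real.exp 3 := Real.exp_le_exp.2 (by norm_num)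
      _ = Real.exp 1 ^ 3 := by rw [← Real.exp_nat_mul]; norm_num
      _ ≤ 2.7182818286 ^ 3 := pow_le_pow_left₀ (Real.exp_pos _).le Real.exp_one_lt_d9.le 3
      _ ≤ 21 := by norm_num
  rw [Real.exp_neg, one_div]
  exact inv_anti₀ (Real.exp_pos _) h1

theorem chi_X2 : 11 / 252 ≤ ∫ x, chi x ^ 2 * orb 0 x ^ 2 := by
  have hi : Integrable (fun x : R3 => Real.exp (-(9 / 4)) * (1 - ‖x‖ ^ 2 / 36) * orb 0 x ^ 2) := by
    have := (orb_zero_integrable.const_mul (Real.exp (-(9 / 4)))).sub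
      (orb_zero_integrable_sq.const_mul (Real.exp (-(9 / 4)) / 36))
    refine this.congr (Eventually.of_forall fun x => ?_)
    simp only [Pi.sub_apply]; ring
  have h1 : ∫ x : R3, Real.exp (-(9 / 4)) * (1 - ‖x‖ ^ 2 / 36) * orb 0 x ^ 2 ≤
      ∫ x, chi x ^ 2 * orb 0 x ^ 2 := by
    refine integral_mono hi ?_ fun x => mul_le_mul_of_nonneg_right (chi_sq_ge x) (sq_nonneg _)
    refine orb_zero_integrable.bdd_mul (test_chi.continuous.pow 2).aestronglyMeasurable (c := 1)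
      (Eventually.of_forall fun x => ?_)
    rw [Real.norm_of_nonneg (sq_nonneg _)]
    have := chi_le_one x
    have := chi_nonneg x
    nlinarith
  have h2 : ∫ x : R3, Real.exp (-(9 / 4)) * (1 - ‖x‖ ^ 2 / 36) * orb 0 x ^ 2 =
      Real.exp (-(9 / 4)) * (11 / 12) := by
    have e : ∀ x : R3, Real.exp (-(9 / 4)) * (1 - ‖x‖ ^ 2 / 36) * orb 0 x ^ 2 =
        Real.exp (-(9 / 4)) * orb 0 x ^ 2 - Real.exp (-(9 / 4)) / 36 * (‖x‖ ^ 2 * orb 0 x ^ 2) :=
      fun x => by ring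
    simp_rw [e]
    rw [integral_sub (orb_zero_integrable.const_mul _) (orb_zero_integrable_sq.const_mul _),
      integral_const_mul, integral_const_mul, orb_zero_int, orb_zero_int_sq]
    ring
  rw [h2] at h1
  have := exp_bound
  linarith

/-- The cutoff inequality needed by `KS.ks_lower`. -/
theorem chi_ineq {φ : R3 → ℝ} (hm0 : MemLp (orb 0) 2 (volume : Measure R3))
    (hφ : MemLp φ 2 (volume : Measure R3)) (hφ1 : ∫ x, φ x ^ 2 = 1)
    (hd : nrm (fun x => φ x - orb 0 x) ≤ 1 / 1000) {δ : ℝ} (hδ : |δ - 3 / 8| ≤ 1 / 1000) :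
    (1 / 2) * (∫ x, (∑ i, (fderiv ℝ chi x (dir i)) ^ 2) * φ x ^ 2) <
      δ * ∫ x, chi x ^ 2 * φ x ^ 2 := by
  have hn0 : nrm (orb 0) = 1 := by rw [nrm, orb_zero_int, Real.sqrt_one]
  have hn1 : nrm φ = 1 := by rw [nrm, hφ1, Real.sqrt_one]
  have key : ∀ t : R3 → ℝ, Measurable t → (∀ x, |t x| ≤ 1) →
      |∫ x, t x * (φ x ^ 2 - orb 0 x ^ 2)| ≤ 1 / 500 := by
    intro t ht ht1
    have h1 := diff_sq_le ht ht1 hφ hm0
    have h2 : ‖hφ.toLp φ - hm0.toLp (orb 0)‖ = nrm (fun x => φ x - orb 0 x) := by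
      have h0 : MemLp (fun x => φ x - orb 0 x) 2 (volume : Measure R3) := hφ.sub hm0
      rw [nrm_eq h0]
      congr 1
    rw [h2, ← nrm_eq hφ, ← nrm_eq hm0, hn0, hn1] at h1
    linarith
  have spl : ∀ t : R3 → ℝ, Measurable t → (∀ x, |t x| ≤ 1) →
      ∫ x, t x * (φ x ^ 2 - orb 0 x ^ 2) = (∫ x, t x * φ x ^ 2) - ∫ x, t x * orb 0 x ^ 2 := by
    intro t ht ht1
    have j1 : Integrable (fun x => t x * φ x ^ 2) :=
      hφ.integrable_sq.bdd_mul ht.aestronglyMeasurable (c := 1)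
        (Eventually.of_forall fun x => by rw [Real.norm_eq_abs]; exact ht1 x)
    have j2 : Integrable (fun x => t x * orb 0 x ^ 2) :=
      hm0.integrable_sq.bdd_mul ht.aestronglyMeasurable (c := 1)
        (Eventually.of_forall fun x => by rw [Real.norm_eq_abs]; exact ht1 x)
    rw [← integral_sub j1 j2]
    exact integral_congr_ae (Eventually.of_forall fun x => by ring)
  have m1 : Measurable (fun x : R3 => ∑ i, (fderiv ℝ chi x (dir i)) ^ 2) :=
    continuous_chi_grad.measurable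
  have b1 : ∀ x : R3, |∑ i, (fderiv ℝ chi x (dir i)) ^ 2| ≤ 1 := fun x => by
    rw [abs_of_nonneg (Finset.sum_nonneg fun i _ => sq_nonneg _)]
    exact chi_grad_le_one x
  have m2 : Measurable (fun x : R3 => chi x ^ 2) := (test_chi.continuous.pow 2).measurable
  have b2 : ∀ x : R3, |chi x ^ 2| ≤ 1 := fun x => by
    rw [abs_of_nonneg (sq_nonneg _)]
    have := chi_le_one x
    have := chi_nonneg x
    nlinarith
  have k1 := key _ m1 b1
  rw [spl _ m1 b1] at k1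
  have k2 := key _ m2 b2
  rw [spl _ m2 b2] at k2
  have x1 := chi_X1
  have x2 := chi_X2
  rw [abs_le] at k1 k2 hδ
  have hX : (1 : ℝ) / 25 ≤ ∫ x, chi x ^ 2 * φ x ^ 2 := by linarith [k2.1]
  have hY : ∫ x, (∑ i, (fderiv ℝ chi x (dir i)) ^ 2) * φ x ^ 2 ≤ 1 / 300 := by linarith [k1.2]
  have hδ1 : (37 : ℝ) / 100 ≤ δ := by linarith [hδ.1]
  nlinarith

end

end Vale.Agent.P363.H942
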