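import Vale.Agent.P363.H942.B7.Conc
import Vale.Agent.P363.R.KS.Calc

/-! Block B7: the gap `δ = μ - e₁` of the Kohn-Sham operator is close to `3/8`. -/

namespace Vale.Agent.P363.H942

open MeasureTheory Filter Topology
open Vale.Agent.P363.Stmt
open Vale.Agent.P363.R.Sob
open Vale.Agent.P363.R.KS (H1 qf KSData dir test_bdd H1.mul_test H1.sub H1.add H1.const_mul)
open Vale.Agent.P363.R.Top
open Vale.Agent.P363.H574 (NatFam kinE)

noncomputable section

/-- the Wronskian-type functional. -/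
def Rf (ζ φ : R3 → ℝ) (gφ : Fin 3 → R3 → ℝ) (a : R3 → ℝ) (ga : Fin 3 → R3 → ℝ) : ℝ :=
  (1 / 2) * ∫ x, ∑ i, fderiv ℝ ζ x (dir i) * (φ x * ga i x - a x * gφ i x)

variable {ζ φ a φ' a' : R3 → ℝ} {gφ ga gφ' ga' : Fin 3 → R3 → ℝ}

theorem integrable_wr (hζ : Test ζ) (hφ : H1 φ gφ) (ha : H1 a ga) :
    Integrable (fun x => ∑ i, fderiv ℝ ζ x (dir i) * (φ x * ga i x - a x * gφ i x)) := by
  refine integrable_finsetSum _ fun i _ => ?_
  have h1 : Integrable (fun x => φ x * ga i x - a x * gφ i x) :=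
    (hφ.mem.integrable_mul (ha.gmem i)).sub (ha.mem.integrable_mul (hφ.gmem i))
  obtain ⟨C, -, hC⟩ := test_bdd (hζ.fderiv (dir i))
  exact h1.bdd_mul (hζ.fderiv (dir i)).continuous.aestronglyMeasurable
    (Eventually.of_forall fun x => by rw [Real.norm_eq_abs]; exact hC x)

/-- crosswise testing of two eigenvalue equations. -/
theorem cross {V : R3 → ℝ} {c₁ c₂ : ℝ} (hζ : Test ζ) (hφ : H1 φ gφ) (ha : H1 a ga)
    (e1 : ∀ h k, H1 h k → (1 / 2) * (∫ x, ∑ i, gφ i x * k i x) + ∫ x, V x * φ x * h x =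
      c₁ * ∫ x, φ x * h x)
    (e2 : ∀ h k, H1 h k → (1 / 2) * (∫ x, ∑ i, ga i x * k i x) + ∫ x, V x * a x * h x =
      c₂ * ∫ x, a x * h x) :
    (c₂ - c₁) * ∫ x, ζ x * (φ x * a x) = Rf ζ φ gφ a ga := by
  have h1 := e1 _ _ (H1.mul_test ha hζ)
  have h2 := e2 _ _ (H1.mul_test hφ hζ)
  have i1 := R.KS.H1.integrable_dot hφ (H1.mul_test ha hζ)
  have i2 := R.KS.H1.integrable_dot ha (H1.mul_test hφ hζ)
  have q1 : ∫ x, V x * φ x * (ζ x * a x) = ∫ x, V x * a x * (ζ x * φ x) :=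
    integral_congr_ae (Eventually.of_forall fun x => by ring)
  have q2 : ∫ x, φ x * (ζ x * a x) = ∫ x, ζ x * (φ x * a x) :=
    integral_congr_ae (Eventually.of_forall fun x => by ring)
  have q3 : ∫ x, a x * (ζ x * φ x) = ∫ x, ζ x * (φ x * a x) :=
    integral_congr_ae (Eventually.of_forall fun x => by ring)
  rw [q1, q2] at h1
  rw [q3] at h2
  have q4 : (∫ x, ∑ i, ga i x * (fderiv ℝ ζ x (dir i) * φ x + ζ x * gφ i x)) -
      (∫ x, ∑ i, gφ i x * (fderiv ℝ ζ x (dir i) * a x + ζ x * ga i x)) =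
      ∫ x, ∑ i, fderiv ℝ ζ x (dir i) * (φ x * ga i x - a x * gφ i x) := by
    rw [← integral_sub i2 i1]
    refine integral_congr_ae (Eventually.of_forall fun x => ?_)
    simp only [← Finset.sum_sub_distrib]
    exact Finset.sum_congr rfl fun i _ => by ring
  unfold Rf
  rw [← q4]
  linarith

theorem Rf_sub (hζ : Test ζ) (hφ : H1 φ gφ) (ha : H1 a ga) (hφ' : H1 φ' gφ') (ha' : H1 a' ga') :
    Rf ζ φ gφ a ga - Rf ζ φ' gφ' a' ga' =
      Rf ζ φ gφ (fun x => a x - a' x) (fun i x => ga i x - ga' i x) -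
        Rf ζ a' ga' (fun x => φ x - φ' x) (fun i x => gφ i x - gφ' i x) := by
  unfold Rf
  rw [← mul_sub, ← mul_sub, ← integral_sub (integrable_wr hζ hφ ha) (integrable_wr hζ hφ' ha'),
    ← integral_sub (integrable_wr hζ hφ (H1.sub ha ha')) (integrable_wr hζ ha' (H1.sub hφ hφ'))]
  congr 1
  refine integral_congr_ae (Eventually.of_forall fun x => ?_)
  simp only [← Finset.sum_sub_distrib]
  exact Finset.sum_congr rfl fun i _ => by ring

/-- integrated by parts form. -/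
theorem Rf_ibp (hζ : Test ζ) (hφ : H1 φ gφ) (ha : H1 a ga) :
    Rf ζ φ gφ a ga = -(1 / 2) * ∑ i, ∫ x, (fderiv ℝ (fun y => fderiv ℝ ζ y (dir i)) x (dir i) * φ x
      + 2 * (fderiv ℝ ζ x (dir i) * gφ i x)) * a x := by
  unfold Rf
  have hi : ∀ i, Integrable (fun x => fderiv ℝ ζ x (dir i) * (φ x * ga i x - a x * gφ i x)) := by
    intro i
    have h1 : Integrable (fun x => φ x * ga i x - a x * gφ i x) :=
      (hφ.mem.integrable_mul (ha.gmem i)).sub (ha.mem.integrable_mul (hφ.gmem i))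
    obtain ⟨C, -, hC⟩ := test_bdd (hζ.fderiv (dir i))
    exact h1.bdd_mul (hζ.fderiv (dir i)).continuous.aestronglyMeasurable
      (Eventually.of_forall fun x => by rw [Real.norm_eq_abs]; exact hC x)
  rw [integral_finsetSum _ fun i _ => hi i, Finset.mul_sum, Finset.mul_sum]
  refine Finset.sum_congr rfl fun i _ => ?_
  have hm := H1.mul_test hφ (hζ.fderiv (dir i))
  have key := IsWD.integral_bilin (ContinuousLinearMap.mul ℝ ℝ) hm.mem (hm.gmem i) ha.mem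
    (ha.gmem i) (hm.wd i) (ha.wd i)
  simp only [ContinuousLinearMap.mul_apply'] at key
  obtain ⟨C, -, hC⟩ := test_bdd (hζ.fderiv (dir i))
  have j1 : Integrable (fun x => fderiv ℝ ζ x (dir i) * φ x * ga i x) :=
    hm.mem.integrable_mul (ha.gmem i)
  have j2 : Integrable (fun x => fderiv ℝ ζ x (dir i) * (gφ i x * a x)) :=
    ((hφ.gmem i).integrable_mul ha.mem).bdd_mul
      (hζ.fderiv (dir i)).continuous.aestronglyMeasurable
      (Eventually.of_forall fun x => by rw [Real.norm_eq_abs]; exact hC x)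
  have j3 : Integrable (fun x => (fderiv ℝ (fun y => fderiv ℝ ζ y (dir i)) x (dir i) * φ x
      + fderiv ℝ ζ x (dir i) * gφ i x) * a x) := (hm.gmem i).integrable_mul ha.mem
  have e1 : ∫ x, fderiv ℝ ζ x (dir i) * (φ x * ga i x - a x * gφ i x) =
      (∫ x, fderiv ℝ ζ x (dir i) * φ x * ga i x) -
        ∫ x, fderiv ℝ ζ x (dir i) * (gφ i x * a x) := by
    rw [← integral_sub j1 j2]
    exact integral_congr_ae (Eventually.of_forall fun x => by ring)
  have e2 : ∫ x, (fderiv ℝ (fun y => fderiv ℝ ζ y (dir i)) x (dir i) * φ x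
      + 2 * (fderiv ℝ ζ x (dir i) * gφ i x)) * a x =
      (∫ x, (fderiv ℝ (fun y => fderiv ℝ ζ y (dir i)) x (dir i) * φ x
      + fderiv ℝ ζ x (dir i) * gφ i x) * a x) + ∫ x, fderiv ℝ ζ x (dir i) * (gφ i x * a x) := by
    rw [← integral_add j3 j2]
    exact integral_congr_ae (Eventually.of_forall fun x => by ring)
  rw [e1, e2]
  linarith

/-- `|∫ F a| ≤ √(∫F²) √(∫a²)` -/
theorem cs_int {F k : R3 → ℝ} (hF : MemLp F 2 (volume : Measure R3))
    (hk : MemLp k 2 (volume : Measure R3)) :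
    |∫ x, F x * k x| ≤ Real.sqrt (∫ x, F x ^ 2) * Real.sqrt (∫ x, k x ^ 2) := by
  rw [← inner_toLp hF hk, ← norm_toLp_sq hF, ← norm_toLp_sq hk, Real.sqrt_sq (norm_nonneg _),
    Real.sqrt_sq (norm_nonneg _)]
  exact abs_real_inner_le_norm _ _

/-- bound of the functional. -/
theorem Rf_le (hζ : Test ζ) : ∃ C : ℝ, 0 ≤ C ∧ ∀ (φ a : R3 → ℝ) (gφ ga : Fin 3 → R3 → ℝ),
    H1 φ gφ → H1 a ga → |Rf ζ φ gφ a ga| ≤
      C * Real.sqrt ((∫ x, φ x ^ 2) + ∫ x, ∑ i, gφ i x ^ 2) * Real.sqrt (∫ x, a x ^ 2) := by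
  choose C1 hC10 hC1 using fun i => test_bdd (hζ.fderiv (dir i))
  choose C2 hC20 hC2 using fun i => test_bdd ((hζ.fderiv (dir i)).fderiv (dir i))
  set M : Fin 3 → ℝ := fun i => 2 * (C2 i) ^ 2 + 8 * (C1 i) ^ 2 with hM
  have hM0 : ∀ i, 0 ≤ M i := fun i => by positivity
  refine ⟨(1 / 2) * ∑ i, Real.sqrt (M i), by positivity, fun φ a gφ ga hφ ha => ?_⟩
  rw [Rf_ibp hζ hφ ha, abs_mul, abs_neg, abs_of_pos (by norm_num : (0:ℝ) < 1 / 2), mul_assoc,
    mul_assoc]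
  refine mul_le_mul_of_nonneg_left ?_ (by norm_num)
  refine (Finset.abs_sum_le_sum_abs _ _).trans ?_
  rw [Finset.sum_mul]
  refine Finset.sum_le_sum fun i _ => ?_
  have hm := H1.mul_test hφ (hζ.fderiv (dir i))
  have hF : MemLp (fun x => fderiv ℝ (fun y => fderiv ℝ ζ y (dir i)) x (dir i) * φ x
      + 2 * (fderiv ℝ ζ x (dir i) * gφ i x)) 2 (volume : Measure R3) := by
    have h2 : MemLp (fun x => fderiv ℝ ζ x (dir i) * gφ i x) 2 (volume : Measure R3) :=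
      R.KS.memLp_bdd_mul (hφ.gmem i) (hζ.fderiv (dir i)).continuous.aestronglyMeasurable
        (Eventually.of_forall (hC1 i))
    have := (hm.gmem i).add h2
    refine this.ae_eq (Eventually.of_forall fun x => ?_)
    simp only [Pi.add_apply]; ring
  refine (cs_int hF ha.mem).trans ?_
  rw [← mul_assoc]
  refine mul_le_mul_of_nonneg_right ?_ (Real.sqrt_nonneg _)
  rw [← Real.sqrt_mul (hM0 i)]
  refine Real.sqrt_le_sqrt ?_
  have ig : ∀ j, Integrable (fun x => gφ j x ^ 2) := fun j => (hφ.gmem j).integrable_sq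
  have iφ : Integrable (fun x => φ x ^ 2) := hφ.mem.integrable_sq
  have is : Integrable (fun x => ∑ j, gφ j x ^ 2) := integrable_finsetSum _ fun j _ => ig j
  have h3 : ∀ x, (fderiv ℝ (fun y => fderiv ℝ ζ y (dir i)) x (dir i) * φ x
      + 2 * (fderiv ℝ ζ x (dir i) * gφ i x)) ^ 2 ≤ M i * (φ x ^ 2 + ∑ j, gφ j x ^ 2) := by
    intro x
    have a1 : (fderiv ℝ (fun y => fderiv ℝ ζ y (dir i)) x (dir i)) ^ 2 ≤ C2 i ^ 2 := by
      rw [← sq_abs]; exact pow_le_pow_left₀ (abs_nonneg _) (hC2 i x) 2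
    have a2 : (fderiv ℝ ζ x (dir i)) ^ 2 ≤ C1 i ^ 2 := by
      rw [← sq_abs]; exact pow_le_pow_left₀ (abs_nonneg _) (hC1 i x) 2
    have a3 : gφ i x ^ 2 ≤ ∑ j, gφ j x ^ 2 :=
      Finset.single_le_sum (f := fun j => gφ j x ^ 2) (fun j _ => sq_nonneg _) (Finset.mem_univ i)
    set p := fderiv ℝ (fun y => fderiv ℝ ζ y (dir i)) x (dir i)
    set q := fderiv ℝ ζ x (dir i)
    have a4 : (p * φ x + 2 * (q * gφ i x)) ^ 2 ≤ 2 * (p ^ 2 * φ x ^ 2) + 8 * (q ^ 2 * gφ i x ^ 2) := by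
      nlinarith [sq_nonneg (p * φ x - 2 * (q * gφ i x))]
    have a5 : p ^ 2 * φ x ^ 2 ≤ C2 i ^ 2 * φ x ^ 2 := mul_le_mul_of_nonneg_right a1 (sq_nonneg _)
    have a6 : q ^ 2 * gφ i x ^ 2 ≤ C1 i ^ 2 * ∑ j, gφ j x ^ 2 :=
      mul_le_mul a2 a3 (sq_nonneg _) (sq_nonneg _)
    have a7 : 0 ≤ C2 i ^ 2 * ∑ j, gφ j x ^ 2 :=
      mul_nonneg (sq_nonneg _) (Finset.sum_nonneg fun j _ => sq_nonneg _)
    have a8 : 0 ≤ C1 i ^ 2 * φ x ^ 2 := by positivity
    simp only [hM]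
    nlinarith
  calc _ ≤ ∫ x, M i * (φ x ^ 2 + ∑ j, gφ j x ^ 2) :=
        integral_mono hF.integrable_sq ((iφ.add is).const_mul _) h3
    _ = _ := by rw [integral_const_mul, integral_add iφ is]

end

end Vale.Agent.P363.H942
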