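import Vale.Agent.P363.H942.B7.Hyd

/-! Block B7: products of the orbitals `2s, 2p₀, 2p₁, 2p₂` are linearly independent, in a
quantitative `L¹` form. -/

namespace Vale.Agent.P363.H942

open MeasureTheory Filter Topology
open Vale.Agent.P363.Stmt
open Vale.Agent.P363.R.Sob
open Vale.Agent.P363.R.KS (H1 qf KSData dir)
open Vale.Agent.P363.R.Top

noncomputable section

theorem continuous_orb (i : Fin 5) : Continuous (orb i) := by
  fin_cases i <;> simp only [orb] <;> fun_prop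

/-- polynomial-like factor of the orbitals of the second shell. -/
def pfac : Fin 5 → R3 → ℝ
  | 0 => fun _ => 0
  | 1 => fun x => 2 - ‖x‖
  | 2 => fun x => x 0
  | 3 => fun x => x 1
  | 4 => fun x => x 2

theorem orb_eq_pfac {i : Fin 5} (hi : i ≠ 0) (x : R3) :
    orb i x = pfac i x * (Real.exp (-‖x‖ / 2) / (4 * Real.sqrt (2 * Real.pi))) := by
  fin_cases i
  · exact absurd rfl hi
  all_goals simp only [orb, pfac]; ring

/-- symmetric matrices with vanishing `0`-th row. -/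
def SymV : Submodule ℝ (Fin 5 → Fin 5 → ℝ) where
  carrier := {A | (∀ i j, A i j = A j i) ∧ ∀ j, A 0 j = 0}
  add_mem' := by
    rintro A B ⟨h1, h2⟩ ⟨h3, h4⟩
    exact ⟨fun i j => by simp [h1 i j, h3 i j], fun j => by simp [h2 j, h4 j]⟩
  zero_mem' := ⟨fun _ _ => rfl, fun _ => rfl⟩
  smul_mem' := by
    rintro c A ⟨h1, h2⟩
    exact ⟨fun i j => by simp [h1 i j], fun j => by simp [h2 j]⟩

theorem mem_SymV {A : Fin 5 → Fin 5 → ℝ} :
    A ∈ SymV ↔ (∀ i j, A i j = A j i) ∧ ∀ j, A 0 j = 0 := Iff.rfl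

/-- the quadratic expression. -/
def quad (A : Fin 5 → Fin 5 → ℝ) (x : R3) : ℝ := ∑ i, ∑ j, A i j * (orb i x * orb j x)

theorem continuous_quad (A : Fin 5 → Fin 5 → ℝ) : Continuous (quad A) := by
  unfold quad
  exact continuous_finsetSum _ fun i _ => continuous_finsetSum _ fun j _ =>
    continuous_const.mul ((continuous_orb i).mul (continuous_orb j))

theorem quad_eq {A : Fin 5 → Fin 5 → ℝ} (hA : A ∈ SymV) (x : R3) :
    quad A x = (Real.exp (-‖x‖ / 2) / (4 * Real.sqrt (2 * Real.pi))) ^ 2 *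
      ∑ i, ∑ j, A i j * (pfac i x * pfac j x) := by
  unfold quad
  rw [Finset.mul_sum]
  refine Finset.sum_congr rfl fun i _ => ?_
  rw [Finset.mul_sum]
  refine Finset.sum_congr rfl fun j _ => ?_
  by_cases hi : i = 0
  · subst hi; simp [hA.2 j]
  by_cases hj : j = 0
  · subst hj; rw [hA.1 i 0, hA.2 i]; simp
  rw [orb_eq_pfac hi, orb_eq_pfac hj]; ring

theorem quad_zero {A : Fin 5 → Fin 5 → ℝ} (hA : A ∈ SymV) (h : ∀ x, quad A x = 0) : A = 0 := by
  have h0 : ∀ x : R3, ∑ i, ∑ j, A i j * (pfac i x * pfac j x) = 0 := by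
    intro x
    have h1 := h x
    rw [quad_eq hA] at h1
    have h2 : (Real.exp (-‖x‖ / 2) / (4 * Real.sqrt (2 * Real.pi))) ^ 2 ≠ 0 := by positivity
    exact (mul_eq_zero.1 h1).resolve_left h2
  obtain ⟨hs, hz⟩ := hA
  have z0 : ∀ j, A j 0 = 0 := fun j => by rw [hs j 0, hz j]
  -- the expression written out
  have h1 : ∀ x : R3, A 1 1 * (2 - ‖x‖) ^ 2 + 2 * (2 - ‖x‖) * (A 1 2 * x 0 + A 1 3 * x 1 + A 1 4 * x 2)
      + A 2 2 * (x 0) ^ 2 + A 3 3 * (x 1) ^ 2 + A 4 4 * (x 2) ^ 2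
      + 2 * (A 2 3 * (x 0 * x 1) + A 2 4 * (x 0 * x 2) + A 3 4 * (x 1 * x 2)) = 0 := by
    intro x
    have h2 := h0 x
    simp only [Fin.sum_univ_five, pfac, hz, z0] at h2
    rw [hs 2 1, hs 3 1, hs 4 1, hs 3 2, hs 4 2, hs 4 3] at h2
    linarith
  have key : ∀ a b c : ℝ, A 1 1 * (2 - Real.sqrt (a ^ 2 + b ^ 2 + c ^ 2)) ^ 2 +
      2 * (2 - Real.sqrt (a ^ 2 + b ^ 2 + c ^ 2)) * (A 1 2 * a + A 1 3 * b + A 1 4 * c)
      + A 2 2 * a ^ 2 + A 3 3 * b ^ 2 + A 4 4 * c ^ 2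
      + 2 * (A 2 3 * (a * b) + A 2 4 * (a * c) + A 3 4 * (b * c)) = 0 := by
    intro a b c
    have h2 := h1 (WithLp.toLp 2 ![a, b, c])
    have hn : ‖(WithLp.toLp 2 ![a, b, c] : R3)‖ = Real.sqrt (a ^ 2 + b ^ 2 + c ^ 2) := by
      rw [EuclideanSpace.norm_eq]
      simp [Fin.sum_univ_three]
    rw [hn] at h2
    simpa using h2
  have s4 : Real.sqrt 4 = 2 := by
    rw [show (4 : ℝ) = 2 ^ 2 by norm_num, Real.sqrt_sq (by norm_num)]
  have a22 : A 2 2 = 0 := by
    have h2 := key 2 0 0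
    norm_num [s4] at h2
    exact h2
  have a33 : A 3 3 = 0 := by
    have h2 := key 0 2 0
    norm_num [s4] at h2
    exact h2
  have a44 : A 4 4 = 0 := by
    have h2 := key 0 0 2
    norm_num [s4] at h2
    exact h2
  have p1 := key 1 0 0
  have p2 := key (-1) 0 0
  have p3 := key 0 1 0
  have p4 := key 0 (-1) 0
  have p5 := key 0 0 1
  have p6 := key 0 0 (-1)
  norm_num [a22, a33, a44] at p1 p2 p3 p4 p5 p6
  have a11 : A 1 1 = 0 := by linarith
  have a12 : A 1 2 = 0 := by linarith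
  have a13 : A 1 3 = 0 := by linarith
  have a14 : A 1 4 = 0 := by linarith
  have a23 : A 2 3 = 0 := by
    have h2 := key 1 1 0
    simpa [a11, a12, a13, a14, a22, a33, a44] using h2
  have a24 : A 2 4 = 0 := by
    have h2 := key 1 0 1
    simpa [a11, a12, a13, a14, a22, a33, a44] using h2
  have a34 : A 3 4 = 0 := by
    have h2 := key 0 1 1
    simpa [a11, a12, a13, a14, a22, a33, a44] using h2
  funext i j
  fin_cases i <;> fin_cases j <;>
    simp [hz, z0, hs 2 1, hs 3 1, hs 4 1, hs 3 2, hs 4 2, hs 4 3, a11, a12, a13, a14, a22, a23,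
      a24, a33, a34, a44]

variable {gorb : Fin 5 → Fin 3 → R3 → ℝ}

theorem Hyd.integrable_mul (H : Hyd gorb) (i j : Fin 5) :
    Integrable (fun x => orb i x * orb j x) :=
  (H.h1 i).mem.integrable_mul (H.h1 j).mem

theorem Hyd.integrable_quad (H : Hyd gorb) (A : Fin 5 → Fin 5 → ℝ) : Integrable (quad A) := by
  unfold quad
  exact integrable_finsetSum _ fun i _ => integrable_finsetSum _ fun j _ =>
    (H.integrable_mul i j).const_mul _

theorem quad_add (A B : Fin 5 → Fin 5 → ℝ) : quad (A + B) = quad A + quad B := by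
  funext x
  simp only [quad, Pi.add_apply, add_mul, Finset.sum_add_distrib]

theorem quad_smul (c : ℝ) (A : Fin 5 → Fin 5 → ℝ) : quad (c • A) = c • quad A := by
  funext x
  simp only [quad, Pi.smul_apply, smul_eq_mul, Finset.mul_sum, mul_assoc]

/-- `A ↦ quad A` as a linear map into `L¹`. -/
def Hyd.Lq (H : Hyd gorb) : SymV →ₗ[ℝ] (Lp ℝ 1 (volume : Measure R3)) where
  toFun A := (H.integrable_quad A).toL1 (quad A)
  map_add' A B := by
    rw [← Integrable.toL1_add]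
    congr 1
    exact quad_add _ _
  map_smul' c A := by
    rw [RingHom.id_apply, ← Integrable.toL1_smul]
    congr 1
    exact quad_smul _ _

theorem Hyd.Lq_ker (H : Hyd gorb) : LinearMap.ker H.Lq = ⊥ := by
  rw [LinearMap.ker_eq_bot']
  intro A hA
  have h1 : quad (A : Fin 5 → Fin 5 → ℝ) =ᵐ[volume] 0 := by
    have h2 : (H.integrable_quad A).toL1 (quad A) = 0 := hA
    have h3 := (H.integrable_quad (A : Fin 5 → Fin 5 → ℝ)).coeFn_toL1
    rw [h2] at h3
    exact h3.symm.trans (Lp.coeFn_zero ℝ 1 volume)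
  have h4 : quad (A : Fin 5 → Fin 5 → ℝ) = 0 :=
    (continuous_quad _).ae_eq_iff_eq volume continuous_zero |>.1 h1
  exact Subtype.ext (quad_zero A.2 fun x => by rw [h4]; rfl)

/-- Quantitative linear independence. -/
theorem Hyd.exists_bound (H : Hyd gorb) : ∃ K : ℝ, 0 < K ∧ ∀ A ∈ SymV, ∀ i j,
    |A i j| ≤ K * ∫ x, |quad A x| := by
  obtain ⟨K, hK, hA⟩ := LinearMap.exists_antilipschitzWith H.Lq H.Lq_ker
  refine ⟨K, hK, fun A hA' i j => ?_⟩
  have h1 := hA.le_mul_dist (⟨A, hA'⟩ : SymV) 0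
  rw [map_zero, dist_zero_right, dist_zero_right] at h1
  have h2 : ‖H.Lq ⟨A, hA'⟩‖ = ∫ x, |quad A x| :=
    L1.norm_of_fun_eq_integral_norm (H.integrable_quad A)
  rw [h2] at h1
  have h3 : |A i j| ≤ ‖(⟨A, hA'⟩ : SymV)‖ := by
    have h4 : ‖(⟨A, hA'⟩ : SymV)‖ = ‖A‖ := rfl
    rw [h4]
    exact (norm_le_pi_norm (A i) j).trans (norm_le_pi_norm A i)
  exact h3.trans h1

end

end Vale.Agent.P363.H942
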