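import Vale.Agent.P363.H942.B7.Conc
import Vale.Agent.P363.H942.B7.Inj

/-! Block B7: the density determines the occupation matrix in the second shell. -/

namespace Vale.Agent.P363.H942

open MeasureTheory Filter Topology
open Vale.Agent.P363.Stmt
open Vale.Agent.P363.R.Sob
open Vale.Agent.P363.R.KS (H1 qf KSData dir)
open Vale.Agent.P363.R.Top
open Vale.Agent.P363.H574 (NatFam kinE)

noncomputable section

variable {gorb : Fin 5 → Fin 3 → R3 → ℝ}
variable {v ρ : R3 → ℝ} {E : ℝ} {ι : Type} {h : ι → R3 → ℝ} {g : ι → Fin 3 → R3 → ℝ}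

/-- multiplication by a bounded measurable function keeps `L²`, norm bound. -/
theorem memLp_bdd_mul {t f : R3 → ℝ} (ht : Measurable t) (ht1 : ∀ x, |t x| ≤ 1)
    (hf : MemLp f 2 (volume : Measure R3)) : MemLp (fun x => t x * f x) 2 (volume : Measure R3) := by
  refine hf.of_le (ht.aestronglyMeasurable.mul hf.1) (Eventually.of_forall fun x => ?_)
  rw [norm_mul, Real.norm_eq_abs]
  exact mul_le_of_le_one_left (norm_nonneg _) (ht1 x)

theorem norm_bdd_mul_le {t f : R3 → ℝ} (ht : Measurable t) (ht1 : ∀ x, |t x| ≤ 1)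
    (hf : MemLp f 2 (volume : Measure R3)) :
    ‖(memLp_bdd_mul ht ht1 hf).toLp _‖ ≤ ‖hf.toLp f‖ := by
  rw [Lp.norm_toLp, Lp.norm_toLp]
  refine ENNReal.toReal_mono hf.2.ne (eLpNorm_mono fun x => ?_)
  rw [norm_mul, Real.norm_eq_abs]
  exact mul_le_of_le_one_left (norm_nonneg _) (ht1 x)

theorem integral_mul_abs_le {f k : R3 → ℝ} (hf : MemLp f 2 (volume : Measure R3))
    (hk : MemLp k 2 (volume : Measure R3)) : |∫ x, f x * k x| ≤ ‖hf.toLp f‖ * ‖hk.toLp k‖ := by
  rw [← inner_toLp hf hk]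
  exact abs_real_inner_le_norm _ _

/-- `|∫ t (u² - w²)| ≤ ‖u-w‖ ‖u+w‖`. -/
theorem diff_sq_le {t u w : R3 → ℝ} (ht : Measurable t) (ht1 : ∀ x, |t x| ≤ 1)
    (hu : MemLp u 2 (volume : Measure R3)) (hw : MemLp w 2 (volume : Measure R3)) :
    |∫ x, t x * (u x ^ 2 - w x ^ 2)| ≤
      ‖hu.toLp u - hw.toLp w‖ * (‖hu.toLp u‖ + ‖hw.toLp w‖) := by
  have h1 := integral_mul_abs_le (memLp_bdd_mul ht ht1 (hu.sub hw)) (hu.add hw)
  have e1 : ∫ x, t x * (u - w) x * (u + w) x = ∫ x, t x * (u x ^ 2 - w x ^ 2) := by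
    refine integral_congr_ae (Eventually.of_forall fun x => ?_)
    simp only [Pi.sub_apply, Pi.add_apply]; ring
  rw [e1] at h1
  refine h1.trans ?_
  have h2 := norm_bdd_mul_le ht ht1 (hu.sub hw)
  rw [MemLp.toLp_sub hu hw] at h2
  have h3 : ‖(hu.add hw).toLp (u + w)‖ ≤ ‖hu.toLp u‖ + ‖hw.toLp w‖ := by
    rw [MemLp.toLp_add hu hw]; exact norm_add_le _ _
  exact mul_le_mul h2 h3 (norm_nonneg _) (norm_nonneg _)

/-- the projected member of the family, as a function. -/
def hhat (h : ι → R3 → ℝ) (j : ι) (x : R3) : ℝ := ∑ i, (∫ y, orb i y * h j y) * orb i x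

theorem hhat_mem (H : Hyd gorb) (j : ι) : MemLp (hhat h j) 2 (volume : Measure R3) := by
  unfold hhat
  exact memLp_finsetSum _ fun i _ => (H.h1 i).mem.const_mul _

theorem hhat_toLp (H : Hyd gorb) (N : NatFam v ρ E h g) (j : ι) :
    (hhat_mem (h := h) H j).toLp _ = ∑ i, (inner ℝ (H.e i) (nF N j) : ℝ) • H.e i := by
  apply Lp.ext
  refine (MemLp.coeFn_toLp _).trans ?_
  refine EventuallyEq.trans ?_ (Lp.coeFn_finsetSum _ _).symm
  have h1 : ∀ i, ⇑((inner ℝ (H.e i) (nF N j) : ℝ) • H.e i : L2R) =ᵐ[volume]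
      fun x => (∫ y, orb i y * h j y) * orb i x := by
    intro i
    refine (Lp.coeFn_smul _ _).trans ?_
    filter_upwards [(H.h1 i).mem.coeFn_toLp] with x hx
    rw [Pi.smul_apply, smul_eq_mul, coef_e, Hyd.e, hx]
  have h2 : ∀ᵐ x, ∀ i, ((inner ℝ (H.e i) (nF N j) : ℝ) • H.e i : L2R) x =
      (∫ y, orb i y * h j y) * orb i x := ae_all_iff.2 h1
  filter_upwards [h2] with x hx
  rw [Finset.sum_apply]
  exact Finset.sum_congr rfl fun i _ => (hx i).symm

theorem hhat_sub (H : Hyd gorb) (N : NatFam v ρ E h g) (j : ι) :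
    (N.h1 j).mem.toLp (h j) - (hhat_mem (h := h) H j).toLp _ = rem H.e (nF N j) := by
  rw [hhat_toLp H N]; rfl

theorem norm_hhat_le (H : Hyd gorb) (N : NatFam v ρ E h g) (j : ι) :
    ‖(hhat_mem (h := h) H j).toLp _‖ ≤ ‖nF N j‖ := by
  have h1 : ‖(hhat_mem (h := h) H j).toLp _‖ ^ 2 = ∑ i, (inner ℝ (H.e i) (nF N j) : ℝ) ^ 2 := by
    rw [hhat_toLp H N, ← real_inner_self_eq_norm_sq, H.orthonormal.inner_sum]
    simp [sq]
  have h2 := sum_coef_sq_le H.orthonormal (nF N j)
  exact (sq_le_sq₀ (norm_nonneg _) (norm_nonneg _)).1 (by linarith)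

/-- `∑ⱼ ∫ t ĥⱼ² = ∑ᵢᵢ' B ∫ t orb orb`. -/
theorem hhat_hasSum (H : Hyd gorb) (N : NatFam v ρ E h g) {t : R3 → ℝ} (ht : Measurable t)
    (ht1 : ∀ x, |t x| ≤ 1) :
    HasSum (fun j => ∫ x, t x * hhat h j x ^ 2)
      (∫ x, t x * quad (fun i i' => Bf (nF N) (H.e i) (H.e i')) x) := by
  have hint : ∀ i i', Integrable (fun x => t x * (orb i x * orb i' x)) := fun i i' =>
    (H.integrable_mul i i').bdd_mul ht.aestronglyMeasurable (c := 1)
      (Eventually.of_forall fun x => by rw [Real.norm_eq_abs]; exact ht1 x)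
  have e1 : ∀ j, ∫ x, t x * hhat h j x ^ 2 = ∑ i, ∑ i',
      (inner ℝ (H.e i) (nF N j) * inner ℝ (H.e i') (nF N j)) * ∫ x, t x * (orb i x * orb i' x) := by
    intro j
    have : ∀ x, t x * hhat h j x ^ 2 = ∑ i, ∑ i',
        (inner ℝ (H.e i) (nF N j) * inner ℝ (H.e i') (nF N j)) * (t x * (orb i x * orb i' x)) := by
      intro x
      rw [hhat, sq, Finset.sum_mul_sum, Finset.mul_sum]
      refine Finset.sum_congr rfl fun i _ => ?_
      rw [Finset.mul_sum]
      refine Finset.sum_congr rfl fun i' _ => ?_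
      rw [coef_e, coef_e]; ring
    simp_rw [this]
    rw [integral_finsetSum _ fun i _ => integrable_finsetSum _ fun i' _ => (hint i i').const_mul _]
    refine Finset.sum_congr rfl fun i _ => ?_
    rw [integral_finsetSum _ fun i' _ => (hint i i').const_mul _]
    refine Finset.sum_congr rfl fun i' _ => ?_
    rw [integral_const_mul]
  have e2 : ∫ x, t x * quad (fun i i' => Bf (nF N) (H.e i) (H.e i')) x =
      ∑ i, ∑ i', Bf (nF N) (H.e i) (H.e i') * ∫ x, t x * (orb i x * orb i' x) := by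
    have : ∀ x, t x * quad (fun i i' => Bf (nF N) (H.e i) (H.e i')) x = ∑ i, ∑ i',
        Bf (nF N) (H.e i) (H.e i') * (t x * (orb i x * orb i' x)) := by
      intro x
      rw [quad, Finset.mul_sum]
      refine Finset.sum_congr rfl fun i _ => ?_
      rw [Finset.mul_sum]
      exact Finset.sum_congr rfl fun i' _ => by ring
    simp_rw [this]
    rw [integral_finsetSum _ fun i _ => integrable_finsetSum _ fun i' _ => (hint i i').const_mul _]
    refine Finset.sum_congr rfl fun i _ => ?_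
    rw [integral_finsetSum _ fun i' _ => (hint i i').const_mul _]
    refine Finset.sum_congr rfl fun i' _ => ?_
    rw [integral_const_mul]
  rw [e2]
  simp_rw [e1]
  refine hasSum_sum fun i _ => hasSum_sum fun i' _ => HasSum.mul_right _ ?_
  exact ((pauli_nF N).summ_mul _ _).hasSum

/-- `∑ⱼ ∫ t hⱼ² = ∫ t ρ`. -/
theorem dens_hasSum [Countable ι] (N : NatFam v ρ E h g) {t : R3 → ℝ} (ht : Measurable t)
    (ht1 : ∀ x, |t x| ≤ 1) :
    HasSum (fun j => ∫ x, t x * h j x ^ 2) (∫ x, t x * ρ x) := by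
  have hs : ∀ᵐ x : R3, HasSum (fun j => t x * h j x ^ 2) (t x * ρ x) := by
    filter_upwards [N.dens] with x hx
    exact hx.mul_left _
  refine hasSum_integral_of_dominated_convergence (fun j x => h j x ^ 2)
    (fun j => ht.aestronglyMeasurable.mul ((N.h1 j).mem.1.pow 2))
    (fun j => Eventually.of_forall fun x => ?_) ?_ ?_ hs
  · rw [norm_mul, Real.norm_eq_abs, Real.norm_of_nonneg (sq_nonneg (h j x))]
    exact mul_le_of_le_one_left (sq_nonneg _) (ht1 x)
  · filter_upwards [N.dens] with x hx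
    exact hx.summable
  · refine N.dens_int.congr ?_
    filter_upwards [N.dens] with x hx
    exact hx.tsum_eq.symm

theorem sum_norm_bound (H : Hyd gorb) (N : NatFam v ρ E h g) {η : ℝ}
    (hn : Near H.e (nF N) η) {t : R3 → ℝ} (ht : Measurable t) (ht1 : ∀ x, |t x| ≤ 1)
    {a b : ℝ} (ha : HasSum (fun j => ∫ x, t x * h j x ^ 2) a)
    (hb : HasSum (fun j => ∫ x, t x * hhat h j x ^ 2) b) :
    |a - b| ≤ 2 * Real.sqrt (η * 5) := by
  have hm : HasSum (fun j => ‖nF N j‖ ^ 2) 5 := by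
    refine N.mass.congr_fun ?_
    intro j; rw [norm_nF_sq]
  have hsub := ha.sub hb
  have e1 : ∀ j, |(∫ x, t x * h j x ^ 2) - ∫ x, t x * hhat h j x ^ 2| ≤
      2 * (‖rem H.e (nF N j)‖ * ‖nF N j‖) := by
    intro j
    have i1 : Integrable (fun x => t x * h j x ^ 2) := by
      have := (memLp_bdd_mul ht ht1 (N.h1 j).mem).integrable_mul (N.h1 j).mem
      refine this.congr (Eventually.of_forall fun x => ?_)
      simp only [Pi.mul_apply]; ring
    have i2 : Integrable (fun x => t x * hhat h j x ^ 2) := by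
      have := (memLp_bdd_mul ht ht1 (hhat_mem (h := h) H j)).integrable_mul (hhat_mem (h := h) H j)
      refine this.congr (Eventually.of_forall fun x => ?_)
      simp only [Pi.mul_apply]; ring
    rw [← integral_sub i1 i2]
    have h1 := diff_sq_le ht ht1 (N.h1 j).mem (hhat_mem (h := h) H j)
    rw [hhat_sub H N] at h1
    have h2 := norm_hhat_le (h := h) H N j
    have h3 : ‖(N.h1 j).mem.toLp (h j)‖ = ‖nF N j‖ := rfl
    rw [h3] at h1
    calc _ = |∫ x, t x * (h j x ^ 2 - hhat h j x ^ 2)| := by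
          congr 1
          exact integral_congr_ae (Eventually.of_forall fun x => by ring)
      _ ≤ _ := h1
      _ ≤ ‖rem H.e (nF N j)‖ * (‖nF N j‖ + ‖nF N j‖) := by gcongr
      _ = _ := by ring
  have hs := summable_mul_of_sq hn.summ hm.summable
  have h1 : |a - b| ≤ ∑' j, 2 * (‖rem H.e (nF N j)‖ * ‖nF N j‖) := by
    rw [← hsub.tsum_eq, ← Real.norm_eq_abs]
    refine tsum_of_norm_bounded (hs.mul_left 2).hasSum fun j => ?_
    rw [Real.norm_eq_abs]; exact e1 j
  rw [tsum_mul_left] at h1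
  have h2 := abs_tsum_mul_le hn.summ hm.summable hn.le hm.tsum_eq.le
  have h3 := le_abs_self (∑' j, ‖rem H.e (nF N j)‖ * ‖nF N j‖)
  linarith

end

end Vale.Agent.P363.H942
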