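import Vale.Agent.P363.H942.B7.Delta
import Vale.Agent.P363.H942.B7.Dens

/-! Block B7: the gap `δ = μ - e₁` of the Kohn-Sham operator is close to `3/8`. -/

namespace Vale.Agent.P363.H942

open MeasureTheory Filter Topology
open Vale.Agent.P363.Stmt
open Vale.Agent.P363.R.Sob
open Vale.Agent.P363.R.KS (H1 qf KSData dir test_bdd H1.mul_test H1.sub H1.add H1.const_mul)
open Vale.Agent.P363.R.Top
open Vale.Agent.P363.H574 (NatFam kinE)

noncomputable section

variable {gorb : Fin 5 → Fin 3 → R3 → ℝ}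

/-- `L²` norm -/
def nrm (f : R3 → ℝ) : ℝ := Real.sqrt (∫ x, f x ^ 2)

theorem nrm_nonneg (f : R3 → ℝ) : 0 ≤ nrm f := Real.sqrt_nonneg _

theorem nrm_eq {f : R3 → ℝ} (hf : MemLp f 2 (volume : Measure R3)) : nrm f = ‖hf.toLp f‖ := by
  rw [nrm, ← norm_toLp_sq hf, Real.sqrt_sq (norm_nonneg _)]

theorem nrm_le_of_sub {f k : R3 → ℝ} (hf : MemLp f 2 (volume : Measure R3))
    (hk : MemLp k 2 (volume : Measure R3)) : nrm f ≤ nrm (fun x => f x - k x) + nrm k := by
  have h0 : MemLp (fun x => f x - k x) 2 (volume : Measure R3) := hf.sub hk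
  rw [nrm_eq hf, nrm_eq hk, nrm_eq h0]
  have h1 : h0.toLp (fun x => f x - k x) = hf.toLp f - hk.toLp k := MemLp.toLp_sub hf hk
  rw [h1]
  calc ‖hf.toLp f‖ = ‖(hf.toLp f - hk.toLp k) + hk.toLp k‖ := by rw [sub_add_cancel]
    _ ≤ _ := norm_add_le _ _

theorem nrm_const_mul (c : ℝ) (f : R3 → ℝ) : nrm (fun x => c * f x) = |c| * nrm f := by
  unfold nrm
  simp only [mul_pow]
  rw [integral_const_mul, Real.sqrt_mul (sq_nonneg c), Real.sqrt_sq_eq_abs]

theorem Hyd.nrm_orb (H : Hyd gorb) (i : Fin 5) : nrm (orb i) = 1 := by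
  unfold nrm
  have := H.orth i i
  rw [if_pos rfl] at this
  have e : ∫ x, orb i x ^ 2 = 1 := by
    rw [← this]
    exact integral_congr_ae (Eventually.of_forall fun x => by ring)
  rw [e, Real.sqrt_one]

theorem abs_int_mul_mul_le {t f k : R3 → ℝ} (ht : Measurable t) (ht1 : ∀ x, |t x| ≤ 1)
    (hf : MemLp f 2 (volume : Measure R3)) (hk : MemLp k 2 (volume : Measure R3)) :
    |∫ x, t x * (f x * k x)| ≤ nrm f * nrm k := by
  have h1 := integral_mul_abs_le (memLp_bdd_mul ht ht1 hf) hk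
  have e1 : ∫ x, t x * f x * k x = ∫ x, t x * (f x * k x) :=
    integral_congr_ae (Eventually.of_forall fun x => by ring)
  rw [e1] at h1
  rw [nrm_eq hf, nrm_eq hk]
  exact h1.trans (mul_le_mul_of_nonneg_right (norm_bdd_mul_le ht ht1 hf) (norm_nonneg _))

/-- the bump function used here. -/
def bump : ContDiffBump (0 : R3) := ⟨1 / 2, 1, by norm_num, by norm_num⟩

theorem test_bump : Test (bump : R3 → ℝ) := ⟨bump.contDiff, bump.hasCompactSupport⟩

theorem bump_abs (x : R3) : |bump x| ≤ 1 := by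
  rw [abs_of_nonneg bump.nonneg]; exact bump.le_one

theorem bump_int_pos : 0 < ∫ x, bump x * (orb 0 x * orb 1 x) := by
  have hc : Continuous (fun x => bump x * (orb 0 x * orb 1 x)) :=
    bump.continuous.mul ((continuous_orb 0).mul (continuous_orb 1))
  refine hc.integral_pos_of_hasCompactSupport_nonneg_nonzero bump.hasCompactSupport.mul_right
    (fun x => ?_) (x := 0) ?_
  · by_cases hx : x ∈ Metric.ball (0 : R3) 1
    · have h1 : ‖x‖ < 1 := by simpa using hx
      have h2 : 0 ≤ orb 0 x := by simp only [orb]; positivity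
      have h3 : 0 ≤ orb 1 x := by
        simp only [orb]
        have : 0 ≤ 2 - ‖x‖ := by linarith
        positivity
      exact mul_nonneg bump.nonneg (mul_nonneg h2 h3)
    · have h1 : bump x = 0 := by
        have := bump.support_eq
        by_contra hne
        have h2 : x ∈ Function.support (bump : R3 → ℝ) := hne
        rw [this] at h2
        exact hx h2
      simp [h1]
  · have h1 : bump (0 : R3) = 1 := bump.one_of_mem_closedBall (by
      simp [bump])
    rw [h1]
    simp only [orb, norm_zero]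
    have := Real.pi_pos
    positivity

/-- Wronskian identity for hydrogen. -/
theorem Hyd.cross (H : Hyd gorb) {ζ : R3 → ℝ} (hζ : Test ζ) (α : ℝ) :
    (3 / 8) * ∫ x, ζ x * (orb 0 x * (-α * orb 1 x)) =
      Rf ζ (orb 0) (gorb 0) (fun x => -α * orb 1 x) (fun i x => -α * gorb 1 i x) := by
  have e : ∀ (i : Fin 5) (h : R3 → ℝ) (k : Fin 3 → R3 → ℝ), H1 h k →
      (1 / 2) * (∫ x, ∑ l, gorb i l x * k l x) + ∫ x, (-(1 / ‖x‖)) * orb i x * h x =
      orbE i * ∫ x, orb i x * h x := by
    intro i h k hk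
    rw [← H.eig i h k hk, sub_eq_add_neg, ← integral_neg]
    congr 1
    exact integral_congr_ae (Eventually.of_forall fun x => by ring)
  have h1 := H942.cross (V := fun x => -(1 / ‖x‖)) (c₁ := orbE 0) (c₂ := orbE 1) hζ (H.h1 0)
    (H1.const_mul (H.h1 1) (-α)) (e 0) ?_
  · have q0 : orbE 0 = -1 / 2 := if_pos rfl
    have q1 : orbE 1 = -1 / 8 := if_neg (by decide)
    rw [q0, q1] at h1
    rw [← h1]
    norm_num
  · intro h k hk
    have h2 := e 1 h k hk
    have f1 : ∫ x, ∑ i, -α * gorb 1 i x * k i x = -α * ∫ x, ∑ i, gorb 1 i x * k i x := by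
      rw [← integral_const_mul]
      refine integral_congr_ae (Eventually.of_forall fun x => ?_)
      simp only [Finset.mul_sum, mul_assoc]
    have f2 : ∫ x, (-(1 / ‖x‖)) * (-α * orb 1 x) * h x =
        -α * ∫ x, (-(1 / ‖x‖)) * orb 1 x * h x := by
      rw [← integral_const_mul]
      exact integral_congr_ae (Eventually.of_forall fun x => by ring)
    have f3 : ∫ x, -α * orb 1 x * h x = -α * ∫ x, orb 1 x * h x := by
      rw [← integral_const_mul]
      exact integral_congr_ae (Eventually.of_forall fun x => by ring)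
    rw [f1, f2, f3]
    linear_combination (-α) * h2

theorem KSData.cross' {v : R3 → ℝ} {μ δ : ℝ} {φ a s : R3 → ℝ} {gφ ga gs : Fin 3 → R3 → ℝ}
    (D : KSData v μ δ φ a s gφ ga gs) {ζ : R3 → ℝ} (hζ : Test ζ) :
    δ * ∫ x, ζ x * (φ x * a x) = Rf ζ φ gφ a ga := by
  have h1 := H942.cross (V := fun x => v x - μ) (c₁ := -δ) (c₂ := 0) hζ D.hφ D.ha
    (fun h k hk => D.eqφ h k hk) (fun h k hk => by rw [zero_mul]; exact D.eqa h k hk)
  rw [← h1]; ring

theorem delta_close (H : Hyd gorb) {α : ℝ} (hα : 0 < α) (K : ℝ) {τ : ℝ} (hτ : 0 < τ) :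
    ∃ d > 0, ∀ {v : R3 → ℝ} {μ δ : ℝ} {φ a s : R3 → ℝ} {gφ ga gs : Fin 3 → R3 → ℝ},
      KSData v μ δ φ a s gφ ga gs → ∫ x, φ x ^ 2 = 1 → ∫ x, ∑ k, gφ k x ^ 2 ≤ K →
      nrm (fun x => φ x - orb 0 x) ≤ d → nrm (fun x => a x - (-α * orb 1 x)) ≤ d →
      |δ - 3 / 8| ≤ τ := by
  set ζ : R3 → ℝ := fun x => bump x with hζdef
  have hζ : Test ζ := test_bump
  obtain ⟨C, hC0, hC⟩ := Rf_le hζ
  set J : ℝ := ∫ x, ζ x * (orb 0 x * orb 1 x) with hJ
  have hJpos : 0 < J := bump_int_pos
  -- constants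
  set K1 : ℝ := (∫ x, (-α * orb 1 x) ^ 2) + ∫ x, ∑ i, (-α * gorb 1 i x) ^ 2 with hK1
  set A : ℝ := C * Real.sqrt (1 + |K|) + C * Real.sqrt K1 with hA
  have hA0 : 0 ≤ A := by positivity
  set B : ℝ := A + (2 + α) with hB
  have hB0 : 0 < B := by positivity
  set d : ℝ := min 1 (min (α * J / (2 * (2 + α))) (τ * (α * J) / (2 * B))) with hd
  have hd0 : 0 < d := by positivity
  refine ⟨d, hd0, ?_⟩
  intro v μ δ φ a s gφ ga gs D hφ1 hKφ hφ ha
  have hd1 : d ≤ 1 := min_le_left _ _
  have hd2 : d ≤ α * J / (2 * (2 + α)) := (min_le_right _ _).trans (min_le_left _ _)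
  have hd3 : d ≤ τ * (α * J) / (2 * B) := (min_le_right _ _).trans (min_le_right _ _)
  have ha0 : H1 (fun x => -α * orb 1 x) (fun i x => -α * gorb 1 i x) := H1.const_mul (H.h1 1) (-α)
  have hId := KSData.cross' D hζ
  have hId0 := H.cross hζ α
  set I : ℝ := ∫ x, ζ x * (φ x * a x) with hI
  set I0 : ℝ := ∫ x, ζ x * (orb 0 x * (-α * orb 1 x)) with hI0
  have hI0v : I0 = -(α * J) := by
    rw [hI0, hJ, ← neg_mul, ← integral_const_mul]
    exact integral_congr_ae (Eventually.of_forall fun x => by ring)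
  -- Rf difference
  have hR : |Rf ζ φ gφ a ga - Rf ζ (orb 0) (gorb 0) (fun x => -α * orb 1 x)
      (fun i x => -α * gorb 1 i x)| ≤ A * d := by
    rw [Rf_sub hζ D.hφ D.ha (H.h1 0) ha0]
    have h1 := hC φ (fun x => a x - (-α * orb 1 x)) gφ (fun i x => ga i x - (-α * gorb 1 i x))
      D.hφ (H1.sub D.ha ha0)
    have h2 := hC (fun x => -α * orb 1 x) (fun x => φ x - orb 0 x) (fun i x => -α * gorb 1 i x)
      (fun i x => gφ i x - gorb 0 i x) ha0 (H1.sub D.hφ (H.h1 0))
    have h3 : Real.sqrt ((∫ x, φ x ^ 2) + ∫ x, ∑ i, gφ i x ^ 2) ≤ Real.sqrt (1 + |K|) := by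
      refine Real.sqrt_le_sqrt ?_
      rw [hφ1]
      have := le_abs_self K
      linarith
    have h4 : |Rf ζ φ gφ (fun x => a x - (-α * orb 1 x)) (fun i x => ga i x - (-α * gorb 1 i x))| ≤
        C * Real.sqrt (1 + |K|) * d := by
      refine h1.trans ?_
      exact mul_le_mul (mul_le_mul_of_nonneg_left h3 hC0) ha (Real.sqrt_nonneg _) (by positivity)
    have h5 : |Rf ζ (fun x => -α * orb 1 x) (fun i x => -α * gorb 1 i x) (fun x => φ x - orb 0 x)
        (fun i x => gφ i x - gorb 0 i x)| ≤ C * Real.sqrt K1 * d := by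
      refine h2.trans ?_
      exact mul_le_mul le_rfl hφ (Real.sqrt_nonneg _) (by positivity)
    calc _ ≤ _ := abs_sub _ _
      _ ≤ _ := add_le_add h4 h5
      _ = _ := by rw [hA]; ring
  -- I difference
  have hII : |I - I0| ≤ (2 + α) * d := by
    have m1 : MemLp (fun x => φ x - orb 0 x) 2 (volume : Measure R3) := D.hφ.mem.sub (H.h1 0).mem
    have m2 : MemLp (fun x => a x - (-α * orb 1 x)) 2 (volume : Measure R3) := D.ha.mem.sub ha0.mem
    have b1 := abs_int_mul_mul_le bump.continuous.measurable bump_abs m1 D.ha.mem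
    have b2 := abs_int_mul_mul_le bump.continuous.measurable bump_abs (H.h1 0).mem m2
    have hna : nrm a ≤ 1 + α := by
      refine (nrm_le_of_sub D.ha.mem ha0.mem).trans ?_
      rw [nrm_const_mul, H.nrm_orb, abs_neg, abs_of_pos hα]
      linarith
    have j1 : Integrable (fun x => bump x * ((φ x - orb 0 x) * a x)) :=
      (m1.integrable_mul D.ha.mem).bdd_mul bump.continuous.aestronglyMeasurable (c := 1)
        (Eventually.of_forall fun x => by rw [Real.norm_eq_abs]; exact bump_abs x)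
    have j2 : Integrable (fun x => bump x * (orb 0 x * (a x - (-α * orb 1 x)))) :=
      ((H.h1 0).mem.integrable_mul m2).bdd_mul bump.continuous.aestronglyMeasurable (c := 1)
        (Eventually.of_forall fun x => by rw [Real.norm_eq_abs]; exact bump_abs x)
    have j3 : Integrable (fun x => ζ x * (φ x * a x)) :=
      (D.hφ.mem.integrable_mul D.ha.mem).bdd_mul bump.continuous.aestronglyMeasurable (c := 1)
        (Eventually.of_forall fun x => by rw [Real.norm_eq_abs]; exact bump_abs x)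
    have j4 : Integrable (fun x => ζ x * (orb 0 x * (-α * orb 1 x))) :=
      ((H.h1 0).mem.integrable_mul ha0.mem).bdd_mul bump.continuous.aestronglyMeasurable (c := 1)
        (Eventually.of_forall fun x => by rw [Real.norm_eq_abs]; exact bump_abs x)
    have e1 : I - I0 = (∫ x, bump x * ((φ x - orb 0 x) * a x)) +
        ∫ x, bump x * (orb 0 x * (a x - (-α * orb 1 x))) := by
      rw [hI, hI0, ← integral_sub j3 j4, ← integral_add j1 j2]
      exact integral_congr_ae (Eventually.of_forall fun x => by simp only [hζdef]; ring)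
    rw [e1]
    calc _ ≤ _ := abs_add_le _ _
      _ ≤ d * (1 + α) + 1 * d := by
          refine add_le_add (b1.trans ?_) (b2.trans ?_)
          · exact mul_le_mul hφ hna (nrm_nonneg _) hd0.le
          · rw [H.nrm_orb]; exact mul_le_mul_of_nonneg_left ha zero_le_one
      _ = _ := by ring
  -- conclusion
  have hIlow : α * J / 2 ≤ |I| := by
    have h1 : (2 + α) * d ≤ α * J / 2 := by
      calc (2 + α) * d ≤ (2 + α) * (α * J / (2 * (2 + α))) := by gcongr
        _ = α * J / 2 := by field_simp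
    have h2 : |I0| = α * J := by rw [hI0v, abs_neg, abs_of_pos (by positivity)]
    have h3 : |I0| - |I - I0| ≤ |I| := by
      have := abs_sub_abs_le_abs_sub I0 I
      rw [abs_sub_comm] at this
      linarith
    linarith
  have hmain : |δ - 3 / 8| * |I| ≤ B * d := by
    rw [← abs_mul]
    have e1 : (δ - 3 / 8) * I = (Rf ζ φ gφ a ga - Rf ζ (orb 0) (gorb 0) (fun x => -α * orb 1 x)
      (fun i x => -α * gorb 1 i x)) - (3 / 8) * (I - I0) := by
      rw [← hId, ← hId0]; ring
    rw [e1]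
    calc _ ≤ _ := abs_sub _ _
      _ ≤ A * d + (3 / 8) * ((2 + α) * d) := by
          refine add_le_add hR ?_
          rw [abs_mul, abs_of_pos (by norm_num : (0:ℝ) < 3 / 8)]
          exact mul_le_mul_of_nonneg_left hII (by norm_num)
      _ ≤ B * d := by
          rw [hB]
          have : 0 ≤ (2 + α) * d := by positivity
          nlinarith
  have hBd : B * d ≤ τ * (α * J / 2) := by
    calc B * d ≤ B * (τ * (α * J) / (2 * B)) := by gcongr
      _ = τ * (α * J / 2) := by field_simp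
  have hJ2 : 0 < α * J / 2 := by positivity
  by_contra hcon
  push Not at hcon
  have : τ * (α * J / 2) < |δ - 3 / 8| * |I| :=
    mul_lt_mul hcon hIlow hJ2 (abs_nonneg _)
  linarith

end

end Vale.Agent.P363.H942
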