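import Vale.Agent.P363.H942.B7.Main
import Vale.Agent.P363.H849.HydInst
import Vale.Agent.P363.H700.NatFam
import Vale.Agent.P363.H574.Main
import Vale.Agent.P363.R.KS.Lower
import Vale.Agent.P363.H917.KSContra

/-! The Kohn-Sham side, unconditional. -/

namespace Vale.Agent.P363.H942

open MeasureTheory Filter Topology
open Vale.Agent.P363.Stmt
open Vale.Agent.P363.R.Top

/-- `Top.ks_side`. -/
theorem ks_side (α β : ℝ) (hα : 0 < α) (hα2 : α < 2) (hβ : 0 < β) (hβ2 : β < 2)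
    (_hs : α + 2 * β = 2) : ∃ ε > 0, ∀ Ψ : ElectronState 5, Close α β ε Ψ →
      FarKink (density Ψ) → ¬ NonintEnsembleRepresentable 4 (density Ψ) :=
  ks_side_of H849.hyd H849.energyPot0 H700.exists_natFam
    (fun N hc w hw => H574.structure_main' N hc w hw)
    (fun r₁ r₂ c₀ C₀ A hr hrR hc₀ =>
      Vale.Agent.P363.R.KS.ks_lower r₁ r₂ c₀ C₀ A hr hrR hc₀)
    (fun hv ha hs hs0 eqa A c ρ hc hA low p hp hinf m e hm he c₁ C₁ hc₁ lowb upb =>
      H917.ks_contradiction hv ha hs hs0 eqa A c ρ hc hA low p hp hinf m e hm he c₁ C₁ hc₁ lowb upb)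
    α β hα hα2 hβ hβ2

end Vale.Agent.P363.H942
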