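import Vale.Agent.P363.H942.B7.Closeness
import Vale.Agent.P363.H942.B7.Cutoff

/-! Block B7: the Kohn-Sham side, assembled from the structure theorem (B6), the lower bound and
the contradiction at infinity (B8) and the one-body facts `Hyd`. -/

namespace Vale.Agent.P363.H942

open MeasureTheory Filter Topology
open Vale.Agent.P363.Stmt
open Vale.Agent.P363.R.Sob
open Vale.Agent.P363.R.KS (H1 qf KSData dir shell)
open Vale.Agent.P363.R.Top
open Vale.Agent.P363.H574 (NatFam kinE)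

noncomputable section

/-- statement of B6-P1 -/
def StmtP1 : Prop := ∀ {ρ : R3 → ℝ}, NonintEnsembleRepresentable 4 ρ →
    ∃ (v : R3 → ℝ) (E : ℝ) (ι : Type) (_ : Countable ι) (f : ι → R3 → ℝ)
      (g : ι → Fin 3 → R3 → ℝ), NatFam v ρ E f g

/-- statement of B6.5 -/
def StmtMain : Prop := ∀ {v ρ : R3 → ℝ} {E : ℝ} {ι : Type} [Countable ι] {h : ι → R3 → ℝ}
    {g : ι → Fin 3 → R3 → ℝ} (_ : NatFam v ρ E h g)
    (_ : ∀ u₁ u₂ : R3 → ℝ, MemLp u₁ 2 (volume : Measure R3) →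
      MemLp u₂ 2 (volume : Measure R3) → ∫ x, u₁ x ^ 2 = 1 → ∫ x, u₂ x ^ 2 = 1 →
      ∫ x, u₁ x * u₂ x = 0 →
      ¬ (∑' j, (∫ x, u₁ x * h j x) ^ 2 = 2 ∧ ∑' j, (∫ x, u₂ x * h j x) ^ 2 = 2))
    (w : R3 → ℝ) (_ : MemLp w 2 (volume : Measure R3)),
    ∃ (μ δ : ℝ) (φ a : R3 → ℝ) (gφ ga gs : Fin 3 → R3 → ℝ),
      KSData v μ δ φ a (fun x => Real.sqrt (ρ x)) gφ ga gs ∧
      ∫ x, φ x ^ 2 = 1 ∧
      (∀ u : R3 → ℝ, MemLp u 2 (volume : Measure R3) →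
        HasSum (fun j => (∫ x, u x * h j x) * (∫ x, φ x * h j x)) (2 * ∫ x, u x * φ x)) ∧
      (∀ u : R3 → ℝ, MemLp u 2 (volume : Measure R3) →
        HasSum (fun j => (∫ x, u x * h j x) * (∫ x, w x * h j x))
          ((∫ x, u x * a x) + 2 * (∫ x, φ x * w x) * ∫ x, u x * φ x)) ∧
      (∀ᵐ x, a x ^ 2 ≤ 2 * (∫ y, w y ^ 2) * ρ x) ∧
      (∀ᵐ x, 2 * φ x ^ 2 ≤ ρ x) ∧
      2 * (∫ x, ∑ k, gφ k x ^ 2) ≤ ∑' j, ∫ x, ∑ k, g j k x ^ 2

/-- statement of B8-1 -/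
def StmtLower : Prop := ∀ (r R c₀ C₀ A : ℝ) (_ : 0 < r) (_ : r < R) (_ : 0 < c₀),
    ∃ ε > 0, ∃ c > 0, ∀ (v : R3 → ℝ) (μ δ : ℝ) (φ a s : R3 → ℝ) (gφ ga gs : Fin 3 → R3 → ℝ),
      KSData v μ δ φ a s gφ ga gs → δ ≤ 1 →
      (∀ᵐ x, |a x| ≤ A * s x) →
      (∀ᵐ x, x ∈ shell r R → c₀ ≤ s x ∧ s x ≤ C₀) →
      ∀ φ0 a0 : R3 → ℝ, (∀ᵐ x, x ∈ shell r R → c₀ ≤ φ0 x ∧ c₀ ≤ a0 x) →
      ∫⁻ x in shell r R, ENNReal.ofReal ((φ x - φ0 x) ^ 2) ≤ ENNReal.ofReal ε →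
      ∫⁻ x in shell r R, ENNReal.ofReal ((a x - a0 x) ^ 2) ≤ ENNReal.ofReal ε →
      ∀ χ : R3 → ℝ, Test χ → (∀ x, r < ‖x‖ → χ x = 0) →
      (1 / 2) * (∫ x, (∑ i, (fderiv ℝ χ x (dir i)) ^ 2) * φ x ^ 2) <
        δ * ∫ x, χ x ^ 2 * φ x ^ 2 →
      ∀ᵐ x, (r + R) / 2 < ‖x‖ → c * s x ≤ a x

/-- statement of B8-2 -/
def StmtContra : Prop := ∀ {v : R3 → ℝ} {μ : ℝ} {a s : R3 → ℝ} {ga : Fin 3 → R3 → ℝ}
    (_ : MemV v) (_ : H1 a ga) (_ : MemLp s 2 (volume : Measure R3)) (_ : ∀ᵐ x, 0 ≤ s x)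
    (_ : ∀ h k, H1 h k → qf v μ a ga h k = 0)
    (A c ρ : ℝ) (_ : 0 < c) (_ : ∀ᵐ x, |a x| ≤ A * s x)
    (_ : ∀ᵐ x, ρ < ‖x‖ → c * s x ≤ a x)
    (p : ℕ → R3) (_ : ∀ k, p k 2 = 0) (_ : Tendsto (fun k => ‖p k‖) atTop atTop)
    (m e : ℕ → ℝ) (_ : ∀ k, 0 < m k) (_ : Tendsto e atTop (𝓝 0)) (c₁ C₁ : ℝ) (_ : 0 < c₁)
    (_ : ∀ k, ∀ᵐ y, y ∈ Metric.ball (p k) 2 → c₁ * m k * (y 2) ^ 2 ≤ s y ^ 2)
    (_ : ∀ k, ∀ t ∈ Set.Ioc (0 : ℝ) 2,
      ∫ y in Metric.ball (p k) 2 ∩ {y | |y 2| < t}, s y ^ 2 ≤ m k * (C₁ * t ^ 3 + e k)),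
    False

variable {gorb : Fin 5 → Fin 3 → R3 → ℝ}

/-- choice of the tolerance -/
theorem exists_kappa {f G : ℝ} (hf : 0 ≤ f) (hfG : f < G) (_hG : G < 2) {d : ℝ} (hd : 0 < d) :
    ∃ κ > 0, (Real.sqrt (f + 5 * κ) + Real.sqrt κ) ^ 2 ≤ G ∧
      5 * κ + Real.sqrt (2 * κ) + 2 * Real.sqrt (2 * (2 * Real.sqrt (2 * κ) / (2 - G))) ≤ d ∧
      2 * Real.sqrt (2 * κ) / (2 - G) < 1 / 2 := by
  have c1 : Continuous (fun κ : ℝ => (Real.sqrt (f + 5 * κ) + Real.sqrt κ) ^ 2) := by fun_prop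
  have c2 : Continuous (fun κ : ℝ => 5 * κ + Real.sqrt (2 * κ) +
      2 * Real.sqrt (2 * (2 * Real.sqrt (2 * κ) / (2 - G)))) := by fun_prop
  have c3 : Continuous (fun κ : ℝ => 2 * Real.sqrt (2 * κ) / (2 - G)) := by fun_prop
  have e1 : ∀ᶠ κ in 𝓝 (0 : ℝ), (Real.sqrt (f + 5 * κ) + Real.sqrt κ) ^ 2 < G := by
    refine (c1.tendsto 0).eventually (gt_mem_nhds ?_)
    simp [Real.sq_sqrt hf, hfG]
  have e2 : ∀ᶠ κ in 𝓝 (0 : ℝ), 5 * κ + Real.sqrt (2 * κ) +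
      2 * Real.sqrt (2 * (2 * Real.sqrt (2 * κ) / (2 - G))) < d := by
    refine (c2.tendsto 0).eventually (gt_mem_nhds ?_)
    simpa using hd
  have e3 : ∀ᶠ κ in 𝓝 (0 : ℝ), 2 * Real.sqrt (2 * κ) / (2 - G) < 1 / 2 := by
    refine (c3.tendsto 0).eventually (gt_mem_nhds ?_)
    simp
  obtain ⟨r, hr, h⟩ := Metric.eventually_nhds_iff.1 (e1.and (e2.and e3))
  obtain ⟨h1, h2, h3⟩ := h (y := r / 2) (by
    rw [Real.dist_eq, sub_zero, abs_of_pos (by positivity)]; linarith)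
  exact ⟨r / 2, by positivity, h1.le, h2.le, h3⟩

theorem lintegral_shell_le {u : R3 → ℝ} (hu : MemLp u 2 (volume : Measure R3)) {d ε : ℝ}
    (hd : nrm u ≤ d) (hdε : d ^ 2 ≤ ε) (S : Set R3) :
    ∫⁻ x in S, ENNReal.ofReal (u x ^ 2) ≤ ENNReal.ofReal ε := by
  calc ∫⁻ x in S, ENNReal.ofReal (u x ^ 2) ≤ ∫⁻ x, ENNReal.ofReal (u x ^ 2) :=
        setLIntegral_le_lintegral _ _
    _ = ENNReal.ofReal (∫ x, u x ^ 2) :=
        (ofReal_integral_eq_lintegral_ofReal hu.integrable_sq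
          (Eventually.of_forall fun x => sq_nonneg _)).symm
    _ ≤ ENNReal.ofReal ε := by
        refine ENNReal.ofReal_le_ofReal ?_
        have h0 : 0 ≤ ∫ x, u x ^ 2 := integral_nonneg fun x => sq_nonneg _
        have h1 : ∫ x, u x ^ 2 = nrm u ^ 2 := by rw [nrm, Real.sq_sqrt h0]
        rw [h1]
        exact (pow_le_pow_left₀ (nrm_nonneg _) hd 2).trans hdε

variable {v ρ : R3 → ℝ} {E : ℝ} {ι : Type} {h : ι → R3 → ℝ} {g : ι → Fin 3 → R3 → ℝ}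

/-- the smallness parameter of the fully occupied orbital -/
def thet (κ G : ℝ) : ℝ := 2 * Real.sqrt (2 * κ) / (2 - G)

/-- a fully occupied real unit vector is close to `± 1s`. -/
theorem full_close (H : Hyd gorb) (N : NatFam v ρ E h g) {α β κ f G : ℝ} (hf0 : 0 ≤ f)
    (hnear : Near H.e (nF N) κ)
    (hB : ∀ i j, |Bf (nF N) (H.e i) (H.e j) - if i = j then occ α β i else 0| ≤ κ)
    (h00 : 2 - κ ≤ Bf (nF N) (H.e 0) (H.e 0)) (hocc : ∀ i, i ≠ 0 → occ α β i ≤ f)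
    (hκ1 : (Real.sqrt (f + 5 * κ) + Real.sqrt κ) ^ 2 ≤ G) (hG2 : G < 2)
    {u : R3 → ℝ} (hu : MemLp u 2 (volume : Measure R3)) (hu1 : ∫ x, u x ^ 2 = 1)
    (hu2 : Bf (nF N) (hu.toLp u) (hu.toLp u) = 2) :
    1 - (∫ x, orb 0 x * u x) ^ 2 ≤ thet κ G := by
  have hn : ‖hu.toLp u‖ = 1 := by
    have := norm_toLp_sq hu
    rw [hu1] at this
    exact (pow_eq_one_iff_of_nonneg (norm_nonneg _) two_ne_zero).1 this
  have := hnear.full hf0 hB hocc hκ1 hG2 h00 hn (τ := 0) (by rw [hu2]; linarith)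
  rw [zero_add, Hyd.e, inner_toLp] at this
  exact this

theorem bessel_two {e u₁ u₂ : L2R} (he : ‖e‖ = 1) (h1 : ‖u₁‖ = 1) (h2 : ‖u₂‖ = 1)
    (h12 : inner ℝ u₁ u₂ = (0 : ℝ)) : (inner ℝ e u₁ : ℝ) ^ 2 + (inner ℝ e u₂ : ℝ) ^ 2 ≤ 1 := by
  set p : ℝ := inner ℝ e u₁ with hp
  set q : ℝ := inner ℝ e u₂ with hq
  have k1 : ‖e - p • u₁‖ ^ 2 = 1 - p ^ 2 := by
    rw [norm_sub_sq_real, inner_smul_right, norm_smul, ← hp, he, h1, mul_one, Real.norm_eq_abs,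
      sq_abs]
    ring
  have k2 : inner ℝ (e - p • u₁) u₂ = q := by
    rw [inner_sub_left, inner_smul_left, h12, ← hq]; simp
  have k3 : ‖(e - p • u₁) - q • u₂‖ ^ 2 = 1 - p ^ 2 - q ^ 2 := by
    rw [norm_sub_sq_real, k1, inner_smul_right, k2, norm_smul, h2, mul_one, Real.norm_eq_abs,
      sq_abs]
    ring
  have := sq_nonneg ‖(e - p • u₁) - q • u₂‖
  linarith

theorem hclose_of (H : Hyd gorb) (N : NatFam v ρ E h g) {α β κ f G : ℝ} (hf0 : 0 ≤ f)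
    (hnear : Near H.e (nF N) κ)
    (hB : ∀ i j, |Bf (nF N) (H.e i) (H.e j) - if i = j then occ α β i else 0| ≤ κ)
    (h00 : 2 - κ ≤ Bf (nF N) (H.e 0) (H.e 0)) (hocc : ∀ i, i ≠ 0 → occ α β i ≤ f)
    (hκ1 : (Real.sqrt (f + 5 * κ) + Real.sqrt κ) ^ 2 ≤ G) (hG2 : G < 2)
    (hκ3 : thet κ G < 1 / 2) : ∀ u₁ u₂ : R3 → ℝ, MemLp u₁ 2 (volume : Measure R3) →
      MemLp u₂ 2 (volume : Measure R3) → ∫ x, u₁ x ^ 2 = 1 → ∫ x, u₂ x ^ 2 = 1 →
      ∫ x, u₁ x * u₂ x = 0 →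
      ¬ (∑' j, (∫ x, u₁ x * h j x) ^ 2 = 2 ∧ ∑' j, (∫ x, u₂ x * h j x) ^ 2 = 2) := by
  rintro u₁ u₂ m1 m2 n1 n2 h12 ⟨s1, s2⟩
  have b1 : Bf (nF N) (m1.toLp u₁) (m1.toLp u₁) = 2 := by
    rw [Bf_nF, ← s1]; exact tsum_congr fun j => by ring
  have b2 : Bf (nF N) (m2.toLp u₂) (m2.toLp u₂) = 2 := by
    rw [Bf_nF, ← s2]; exact tsum_congr fun j => by ring
  have f1 := full_close H N hf0 hnear hB h00 hocc hκ1 hG2 m1 n1 b1
  have f2 := full_close H N hf0 hnear hB h00 hocc hκ1 hG2 m2 n2 b2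
  have l1 : ‖m1.toLp u₁‖ = 1 := by
    have := norm_toLp_sq m1
    rw [n1] at this
    exact (pow_eq_one_iff_of_nonneg (norm_nonneg _) two_ne_zero).1 this
  have l2 : ‖m2.toLp u₂‖ = 1 := by
    have := norm_toLp_sq m2
    rw [n2] at this
    exact (pow_eq_one_iff_of_nonneg (norm_nonneg _) two_ne_zero).1 this
  have hb := bessel_two (H.orthonormal.1 0) l1 l2 (by rw [inner_toLp]; exact h12)
  rw [Hyd.e, inner_toLp, inner_toLp] at hb
  linarith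

/-- `φ` is close to `1s`. -/
theorem phi_close (H : Hyd gorb) {φ : R3 → ℝ} (hφm : MemLp φ 2 (volume : Measure R3))
    (hφ1 : ∫ x, φ x ^ 2 = 1) (hpos : ∀ᵐ x, 0 < φ x) {θ : ℝ}
    (fφ : 1 - (∫ x, orb 0 x * φ x) ^ 2 ≤ θ) :
    nrm (fun x => φ x - orb 0 x) ≤ Real.sqrt (2 * θ) := by
  set t : ℝ := ∫ x, orb 0 x * φ x with ht
  have ht0 : 0 ≤ t := by
    refine integral_nonneg_of_ae ?_
    filter_upwards [hpos] with x hx
    have : 0 ≤ orb 0 x := by simp only [orb]; positivity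
    exact mul_nonneg this hx.le
  have m0 := (H.h1 0).mem
  have i0 : ∫ x, orb 0 x ^ 2 = 1 := orb_zero_int
  have hnφ : nrm φ = 1 := by rw [nrm, hφ1, Real.sqrt_one]
  have ht1 : t ≤ 1 := by
    have := integral_mul_abs_le m0 hφm
    rw [← nrm_eq m0, ← nrm_eq hφm, hnφ, H.nrm_orb, mul_one] at this
    exact (le_abs_self t).trans this
  unfold nrm
  refine Real.sqrt_le_sqrt ?_
  have e : ∫ x, (φ x - orb 0 x) ^ 2 = 2 - 2 * t := by
    have j1 := hφm.integrable_sq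
    have j2 := m0.integrable_sq
    have j3 : Integrable (fun x => orb 0 x * φ x) := m0.integrable_mul hφm
    have e1 : ∀ x, (φ x - orb 0 x) ^ 2 = (φ x ^ 2 + orb 0 x ^ 2) - 2 * (orb 0 x * φ x) :=
      fun x => by ring
    simp_rw [e1]
    have j12 : Integrable (fun x => φ x ^ 2 + orb 0 x ^ 2) := j1.add j2
    rw [integral_sub j12 (j3.const_mul 2), integral_add j1 j2, integral_const_mul, ← ht, hφ1, i0]
    norm_num
  rw [e]
  nlinarith

/-- `φ` is almost orthogonal to `2s`. -/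
theorem phi_e1 (H : Hyd gorb) {φ : R3 → ℝ} (hφm : MemLp φ 2 (volume : Measure R3)) {b : ℝ}
    (hb : nrm (fun x => φ x - orb 0 x) ≤ b) : |∫ x, φ x * -orb 1 x| ≤ b := by
  have m0 := (H.h1 0).mem
  have m1 := (H.h1 1).mem
  have j1 : Integrable (fun x => (φ x - orb 0 x) * orb 1 x) := (hφm.sub m0).integrable_mul m1
  have j2 : Integrable (fun x => orb 0 x * orb 1 x) := H.integrable_mul 0 1
  have e1 : ∫ x, φ x * -orb 1 x = -∫ x, (φ x - orb 0 x) * orb 1 x := by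
    have o := H.orth 0 1
    rw [if_neg (by decide)] at o
    have : ∫ x, φ x * -orb 1 x = ∫ x, -(((φ x - orb 0 x) * orb 1 x) + orb 0 x * orb 1 x) :=
      integral_congr_ae (Eventually.of_forall fun x => by ring)
    rw [this, integral_neg, integral_add j1 j2, o, add_zero]
  rw [e1, abs_neg]
  have h0 : MemLp (fun x => φ x - orb 0 x) 2 (volume : Measure R3) := hφm.sub m0
  have h1 := integral_mul_abs_le h0 m1
  rw [← nrm_eq h0, ← nrm_eq m1, H.nrm_orb, mul_one] at h1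
  exact h1.trans hb

/-- `a` is close to `-α 2s`. -/
theorem a_close (H : Hyd gorb) (N : NatFam v ρ E h g) {α β κ b : ℝ} (hκ : 0 ≤ κ) (hb0 : 0 ≤ b)
    (hnear : Near H.e (nF N) κ)
    (hB : ∀ i j, |Bf (nF N) (H.e i) (H.e j) - if i = j then occ α β i else 0| ≤ κ)
    {φ a : R3 → ℝ} (hφm : MemLp φ 2 (volume : Measure R3)) (hφ1 : ∫ x, φ x ^ 2 = 1)
    (ham : MemLp a 2 (volume : Measure R3)) (hφe1 : |∫ x, φ x * -orb 1 x| ≤ b)
    (haf : ∀ u : R3 → ℝ, MemLp u 2 (volume : Measure R3) →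
        HasSum (fun j => (∫ x, u x * h j x) * (∫ x, -orb 1 x * h j x))
          ((∫ x, u x * a x) + 2 * (∫ x, φ x * -orb 1 x) * ∫ x, u x * φ x)) :
    nrm (fun x => a x - (-α * orb 1 x)) ≤ 5 * κ + Real.sqrt (2 * κ) + 2 * b := by
  have m1 := (H.h1 1).mem
  have m1' : MemLp (fun x => -α * orb 1 x) 2 (volume : Measure R3) := m1.const_mul _
  have mu : MemLp (fun x => a x - (-α * orb 1 x)) 2 (volume : Measure R3) := ham.sub m1'
  have hnφ : nrm φ = 1 := by rw [nrm, hφ1, Real.sqrt_one]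
  set u : R3 → ℝ := fun x => a x - (-α * orb 1 x) with hu
  have k1 := (haf u mu).tsum_eq
  have k2 : Bf (nF N) (mu.toLp u) (H.e 1) = -∑' j, (∫ x, u x * h j x) * ∫ x, -orb 1 x * h j x := by
    rw [Hyd.e, Bf_nF, ← tsum_neg]
    refine tsum_congr fun j => ?_
    have : ∫ x, -orb 1 x * h j x = -∫ x, orb 1 x * h j x := by
      rw [← integral_neg]; congr 1; funext x; ring
    rw [this]; ring
  have k3 := hnear.apply hB 1 (mu.toLp u)
  rw [k2, k1, Hyd.e, inner_toLp, ← nrm_eq mu, occ_one] at k3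
  have k4 : |∫ x, u x * φ x| ≤ nrm u := by
    have := integral_mul_abs_le mu hφm
    rwa [← nrm_eq mu, ← nrm_eq hφm, hnφ, mul_one] at this
  have ia : Integrable (fun x => u x * a x) := mu.integrable_mul ham
  have io : Integrable (fun x => u x * orb 1 x) := mu.integrable_mul m1
  have k5 : nrm u ^ 2 = (∫ x, u x * a x) + α * ∫ x, u x * orb 1 x := by
    rw [nrm, Real.sq_sqrt (integral_nonneg fun x => sq_nonneg _), ← integral_const_mul,
      ← integral_add ia (io.const_mul α)]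
    refine integral_congr_ae (Eventually.of_forall fun x => ?_)
    simp only [hu]; ring
  have k6 : |2 * (∫ x, φ x * -orb 1 x) * ∫ x, u x * φ x| ≤ 2 * b * nrm u := by
    rw [abs_mul, abs_mul, abs_of_pos (by norm_num : (0:ℝ) < 2)]
    exact mul_le_mul (mul_le_mul_of_nonneg_left hφe1 (by norm_num)) k4 (abs_nonneg _)
      (by positivity)
  have k7 : nrm u ^ 2 ≤ (5 * κ + Real.sqrt (2 * κ) + 2 * b) * nrm u := by
    rw [abs_le] at k3 k6
    rw [k5]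
    nlinarith [k3.1, k6.1, k6.2, k3.2]
  by_cases h0 : nrm u = 0
  · rw [h0]; positivity
  · have hpos : 0 < nrm u := lt_of_le_of_ne (nrm_nonneg _) (Ne.symm h0)
    rw [sq] at k7
    exact le_of_mul_le_mul_right k7 hpos

/-- lower bound on the shell -/
def cSh (α : ℝ) : ℝ := min (Real.exp (-20) / (2 * Real.sqrt Real.pi))
    (α * 16 * Real.exp (-10) / (4 * Real.sqrt (2 * Real.pi)))

theorem cSh_pos {α : ℝ} (hα : 0 < α) : 0 < cSh α := by
  have := Real.pi_pos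
  exact lt_min (by positivity) (by positivity)

theorem orb_zero_low {α' : ℝ} {x : R3} (h20 : ‖x‖ < 20) : 2 * cSh α' ≤ orb 0 x := by
  have h3 : Real.exp (-20) / Real.sqrt Real.pi ≤ orb 0 x := by
    simp only [orb]
    have : Real.exp (-20) ≤ Real.exp (-‖x‖) := Real.exp_le_exp.2 (by linarith)
    gcongr
  have h6 : cSh α' ≤ Real.exp (-20) / (2 * Real.sqrt Real.pi) := min_le_left _ _
  have h7 : Real.exp (-20) / (2 * Real.sqrt Real.pi) =
      (Real.exp (-20) / Real.sqrt Real.pi) / 2 := by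
    have := Real.sqrt_pos.2 Real.pi_pos
    field_simp
  rw [h7] at h6
  linarith

theorem shell_lim {α : ℝ} (hα : 0 < α) :
    ∀ᵐ x : R3, x ∈ shell 18 20 → cSh α ≤ orb 0 x ∧ cSh α ≤ -α * orb 1 x := by
  refine Eventually.of_forall fun x hmem => ?_
  obtain ⟨h18, h20⟩ := hmem
  constructor
  · have h1 := orb_zero_low (α' := α) h20
    have h2 := cSh_pos hα
    linarith
  · have h6 : cSh α ≤ α * 16 * Real.exp (-10) / (4 * Real.sqrt (2 * Real.pi)) := min_le_right _ _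
    refine h6.trans ?_
    simp only [orb]
    have e1 : -α * ((2 - ‖x‖) * Real.exp (-‖x‖ / 2) / (4 * Real.sqrt (2 * Real.pi))) =
        α * (‖x‖ - 2) * Real.exp (-‖x‖ / 2) / (4 * Real.sqrt (2 * Real.pi)) := by ring
    rw [e1]
    have h7 : Real.exp (-10) ≤ Real.exp (-‖x‖ / 2) := Real.exp_le_exp.2 (by linarith)
    have h8 : α * 16 ≤ α * (‖x‖ - 2) := mul_le_mul_of_nonneg_left (by linarith) hα.le
    have h9 : 0 ≤ α * (‖x‖ - 2) := mul_nonneg hα.le (by linarith)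
    gcongr

theorem shell_s {α β ε M : ℝ} (hα : 0 < α) (hβ : 0 < β) {Ψ : ElectronState 5}
    (hCl : Close α β ε Ψ) (hε : ε ≤ cSh α) (hε1 : ε ≤ 1)
    (hM : ∀ x ∈ Metric.closedBall (0 : R3) 20, n0 α β x ≤ M) :
    ∀ᵐ x, x ∈ shell 18 20 →
      cSh α ≤ Real.sqrt (density Ψ x) ∧ Real.sqrt (density Ψ x) ≤ Real.sqrt M + 1 := by
  filter_upwards [hCl.shell] with x hx hmem
  obtain ⟨h18, h20⟩ := hmem
  have h1 := hx (by linarith) h20.le
  rw [abs_le] at h1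
  constructor
  · have h2 : orb 0 x ≤ Real.sqrt (n0 α β x) := by
      have h4 : orb 0 x ^ 2 ≤ n0 α β x := by
        unfold n0
        have a1 := sq_nonneg (orb 0 x)
        have a2 : 0 ≤ α * orb 1 x ^ 2 := by positivity
        have a3 : 0 ≤ β * (orb 2 x ^ 2 + orb 3 x ^ 2) := by positivity
        have a4 := sq_nonneg (orb 4 x)
        linarith
      have h5 : 0 ≤ orb 0 x := by simp only [orb]; positivity
      calc orb 0 x = Real.sqrt (orb 0 x ^ 2) := (Real.sqrt_sq h5).symm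
        _ ≤ _ := Real.sqrt_le_sqrt h4
    have h3 := orb_zero_low (α' := α) h20
    linarith [h1.1]
  · have h2 : Real.sqrt (n0 α β x) ≤ Real.sqrt M :=
      Real.sqrt_le_sqrt (hM x (by simpa using h20.le))
    linarith [h1.2]

theorem kin_bound [Countable ι] (H : Hyd gorb) (N : NatFam v ρ E h g)
    (hρi : Integrable (fun x => ρ x / ‖x‖)) {CH ε : ℝ} (hε : ε ≤ 1)
    (hCH : ∀ f g, H1 f g →
      ∫ x, f x ^ 2 / ‖x‖ ≤ (1 / 8) * (∫ x, ∑ k, g k x ^ 2) + CH * ∫ x, f x ^ 2)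
    (hen1 : (1 / 2) * (∑' j, ∫ x, ∑ k, g j k x ^ 2) - (∫ x, ρ x / ‖x‖) ≤ -11 / 8 + ε) :
    ∑' j, ∫ x, ∑ k, g j k x ^ 2 ≤ 40 / 3 * |CH| := by
  have hp := pot_hasSum H N hρi
  have hk := N.kin.hasSum
  have h1 := hasSum_le (fun j => hCH _ _ (N.h1 j)) hp
    ((hk.mul_left (1 / 8)).add (N.mass.mul_left CH))
  have h2 := le_abs_self CH
  linarith

/-- The Kohn-Sham side (exact statement of `Top.ks_side`). -/
theorem ks_side_of (H : Hyd gorb) (HE : EnergyPot0) (P1 : StmtP1) (SM : StmtMain)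
    (SL : StmtLower) (SC : StmtContra)
    (α β : ℝ) (hα : 0 < α) (hα2 : α < 2) (hβ : 0 < β) (hβ2 : β < 2) :
    ∃ ε > 0, ∀ Ψ : ElectronState 5, Close α β ε Ψ →
      FarKink (density Ψ) → ¬ NonintEnsembleRepresentable 4 (density Ψ) := by
  obtain ⟨CH, hCH⟩ := H.hardy
  -- maximal occupation
  obtain ⟨f, hf0, hf2, hocc⟩ : ∃ f : ℝ, 0 ≤ f ∧ f < 2 ∧ ∀ i, i ≠ 0 → occ α β i ≤ f := by
    refine ⟨max α (max β 1), hα.le.trans (le_max_left _ _),
      max_lt hα2 (max_lt hβ2 (by norm_num)), fun i hi => ?_⟩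
    unfold occ
    rw [if_neg hi]
    split_ifs
    · exact le_max_left _ _
    · exact (le_max_right _ _).trans (le_max_right _ _)
    · exact (le_max_left _ _).trans (le_max_right _ _)
  obtain ⟨G, hfG, hG2⟩ := exists_between hf2
  obtain ⟨M, hM⟩ : ∃ M : ℝ, ∀ x ∈ Metric.closedBall (0 : R3) 20, n0 α β x ≤ M := by
    have hcont : Continuous (n0 α β) := by
      have : n0 α β = quad (dgl α β) := funext fun x => n0_eq α β x
      rw [this]; exact continuous_quad _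
    obtain ⟨M, hM⟩ := (isCompact_closedBall (0 : R3) 20).bddAbove_image hcont.continuousOn
    exact ⟨M, fun x hx => hM (Set.mem_image_of_mem _ hx)⟩
  have hc0pos := cSh_pos hα
  obtain ⟨ε1, hε1, c, hc, HL⟩ := SL 18 20 (cSh α) (Real.sqrt M + 1) (Real.sqrt 2) (by norm_num)
    (by norm_num) hc0pos
  obtain ⟨dδ, hdδ, Hδ⟩ := delta_close H hα (20 / 3 * |CH|) (τ := 1 / 1000) (by norm_num)
  obtain ⟨d, hd0, hd1, hd2, hd3⟩ : ∃ d : ℝ, 0 < d ∧ d ≤ 1 / 1000 ∧ d ≤ dδ ∧ d ^ 2 ≤ ε1 := by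
    have := Real.sqrt_pos.2 hε1
    refine ⟨min (1 / 1000) (min dδ (Real.sqrt ε1)), by positivity, min_le_left _ _,
      (min_le_right _ _).trans (min_le_left _ _), ?_⟩
    have h1 : min (1 / 1000) (min dδ (Real.sqrt ε1)) ≤ Real.sqrt ε1 :=
      (min_le_right _ _).trans (min_le_right _ _)
    calc _ ≤ Real.sqrt ε1 ^ 2 := pow_le_pow_left₀ (by positivity) h1 2
      _ = ε1 := Real.sq_sqrt hε1.le
  obtain ⟨κ, hκ, hκ1, hκ2, hκ3⟩ := exists_kappa hf0 hfG hG2 hd0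
  obtain ⟨ε2, hε2, HC⟩ := closeness H α β hκ
  refine ⟨min ε2 (min (cSh α) 1), by positivity, ?_⟩
  intro Ψ hCl hFK hrep
  have hεa : min ε2 (min (cSh α) 1) ≤ ε2 := min_le_left _ _
  have hεb : min ε2 (min (cSh α) 1) ≤ cSh α := (min_le_right _ _).trans (min_le_left _ _)
  have hεc : min ε2 (min (cSh α) 1) ≤ 1 := (min_le_right _ _).trans (min_le_right _ _)
  generalize min ε2 (min (cSh α) 1) = ε at *
  obtain ⟨v, E, ι, hι, h, g, N⟩ := P1 hrep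
  obtain ⟨hρi, hen⟩ := HE Ψ
  have hkin := N.kin_le Ψ hCl.norm (Eventually.of_forall fun x => rfl)
  have hen1 : (1 / 2) * (∑' j, ∫ x, ∑ k, g j k x ^ 2) - (∫ x, density Ψ x / ‖x‖) ≤
      -11 / 8 + ε := by
    have := hCl.en
    linarith
  obtain ⟨hnear, hB, h00⟩ := HC N hρi (hen1.trans (by linarith)) hCl.dens_int
    (hCl.dens.trans hεa)
  -- bound on the kinetic energy
  have hS := kin_bound H N hρi hεc hCH hen1
  have hθ0 : 0 ≤ thet κ G := by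
    have : 0 < 2 - G := by linarith
    unfold thet; positivity
  have hcl := hclose_of H N hf0 hnear hB h00 hocc hκ1 hG2 hκ3
  obtain ⟨μ, δ, φ, a, gφ, ga, gs, D, hφ1, hφf, haf, ha2, -, hkφ⟩ :=
    SM N hcl (fun x => -orb 1 x) (H.h1 1).mem.neg
  -- `φ` is close to `1s`
  have hφm := D.hφ.mem
  have bφ : Bf (nF N) (hφm.toLp φ) (hφm.toLp φ) = 2 := by
    rw [Bf_nF, (hφf φ hφm).tsum_eq]
    have : ∫ x, φ x * φ x = 1 := by rw [← hφ1]; congr 1; funext x; ring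
    rw [this]; norm_num
  have fφ := full_close H N hf0 hnear hB h00 hocc hκ1 hG2 hφm hφ1 bφ
  have hφclose := phi_close H hφm hφ1 D.φpos fφ
  have hφd : nrm (fun x => φ x - orb 0 x) ≤ d := by
    refine hφclose.trans (le_trans ?_ hκ2)
    have h1 : 0 ≤ Real.sqrt (2 * κ) := Real.sqrt_nonneg _
    have h2 : 0 ≤ Real.sqrt (2 * thet κ G) := Real.sqrt_nonneg _
    unfold thet at h2 ⊢
    linarith
  -- `a` is close to `-α 2s`
  have haclose : nrm (fun x => a x - (-α * orb 1 x)) ≤ d :=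
    (a_close H N hκ.le (Real.sqrt_nonneg _) hnear hB hφm hφ1 D.ha.mem
      (phi_e1 H hφm hφclose) haf).trans hκ2
  -- the gap
  have hδ := Hδ D hφ1 (by
    have := hkφ.trans hS
    linarith) (hφd.trans hd2) (haclose.trans hd2)
  have hδ1 : δ ≤ 1 := by rw [abs_le] at hδ; linarith [hδ.2]
  -- pointwise bounds
  have hρ0 : ∀ᵐ x, 0 ≤ density Ψ x := by
    filter_upwards [N.dens] with x hx
    exact hx.nonneg fun j => sq_nonneg _
  have hw1 : ∫ y, (-orb 1 y) ^ 2 = 1 := by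
    have o := H.orth 1 1
    rw [if_pos rfl] at o
    rw [← o]
    exact integral_congr_ae (Eventually.of_forall fun x => by ring)
  have hA : ∀ᵐ x, |a x| ≤ Real.sqrt 2 * Real.sqrt (density Ψ x) := by
    filter_upwards [ha2] with x hx
    rw [hw1, mul_one] at hx
    rw [← Real.sqrt_mul (by norm_num), ← Real.sqrt_sq_eq_abs]
    exact Real.sqrt_le_sqrt hx
  have m1' : MemLp (fun x => -α * orb 1 x) 2 (volume : Measure R3) := (H.h1 1).mem.const_mul _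
  have hlow := HL v μ δ φ a (fun x => Real.sqrt (density Ψ x)) gφ ga gs D hδ1 hA
    (shell_s hα hβ hCl hεb hεc hM) (orb 0) (fun x => -α * orb 1 x) (shell_lim hα)
    (lintegral_shell_le (hφm.sub (H.h1 0).mem) hφd hd3 _)
    (lintegral_shell_le (D.ha.mem.sub m1') haclose hd3 _)
    chi test_chi (fun x hx => chi_zero hx.le)
    (chi_ineq (H.h1 0).mem hφm hφ1 (hφd.trans hd1) hδ)
  obtain ⟨p, m, e, c₁, C₁, hc₁, hp, hinf, hm, he, hlb, hub⟩ := hFK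
  refine SC D.memV D.ha D.hs.mem (Eventually.of_forall fun x => Real.sqrt_nonneg _) D.eqa
    (Real.sqrt 2) c ((18 + 20) / 2) hc hA hlow p hp hinf m e hm he c₁ C₁ hc₁ ?_ ?_
  · intro k
    filter_upwards [hlb k, hρ0] with y hy hy0 hmem
    rw [Real.sq_sqrt hy0]
    exact hy hmem
  · intro k t ht
    have e1 : ∫ y in Metric.ball (p k) 2 ∩ {y | |y 2| < t}, Real.sqrt (density Ψ y) ^ 2 =
        ∫ y in Metric.ball (p k) 2 ∩ {y | |y 2| < t}, density Ψ y := by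
      refine integral_congr_ae (ae_restrict_of_ae ?_)
      filter_upwards [hρ0] with y hy
      rw [Real.sq_sqrt hy]
    rw [e1]
    exact hub k t ht

end

end Vale.Agent.P363.H942
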